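import Vale.Agent.P166.Defs

/-!
# P166: convexity of the pressure
-/

open Real

namespace Vale.Agent.P166

variable {N : ℕ} {β : ℝ}

/-- The pressure of a general energy. -/
noncomputable def pressQ (β : ℝ) (h : (Fin N → Bool) → ℝ) : ℝ :=
  log ((1 / 2) ^ N * ∑ s, exp (β / 2 * h s)) / N

/-- The Gibbs average of `f`. -/
noncomputable def avgQ (β : ℝ) (h f : (Fin N → Bool) → ℝ) : ℝ :=
  (∑ s, exp (β / 2 * h s) * f s) / ∑ s, exp (β / 2 * h s)

/-- The energy of a diagonal matrix seen through `U`. -/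
noncomputable def energy (lam : Fin N → ℝ) (U : Fin N → Fin N → ℝ) (s : Fin N → Bool) : ℝ :=
  ∑ i, lam i * rotate U s i ^ 2

theorem press_eq (lam : Fin N → ℝ) (U : Fin N → Fin N → ℝ) :
    press β lam U = pressQ β (energy lam U) := rfl

theorem sum_exp_pos (h : (Fin N → Bool) → ℝ) : 0 < ∑ s, exp (β / 2 * h s) :=
  Finset.sum_pos (fun _ _ => exp_pos _) Finset.univ_nonempty

theorem avgQ_mono {h f g : (Fin N → Bool) → ℝ} (H : ∀ s, f s ≤ g s) : avgQ β h f ≤ avgQ β h g :=
  div_le_div_of_nonneg_right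
    (Finset.sum_le_sum fun s _ => mul_le_mul_of_nonneg_left (H s) (exp_pos _).le) (sum_exp_pos h).le

theorem avgQ_const (h : (Fin N → Bool) → ℝ) (c : ℝ) : avgQ β h (fun _ => c) = c := by
  rw [avgQ, ← Finset.sum_mul, mul_div_cancel_left₀ _ (sum_exp_pos h).ne']

theorem avgQ_add (h f g : (Fin N → Bool) → ℝ) :
    avgQ β h (fun s => f s + g s) = avgQ β h f + avgQ β h g := by
  simp only [avgQ, mul_add, Finset.sum_add_distrib, add_div]

theorem avgQ_mul (h f : (Fin N → Bool) → ℝ) (c : ℝ) :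
    avgQ β h (fun s => c * f s) = c * avgQ β h f := by
  simp only [avgQ]
  rw [mul_div_assoc', Finset.mul_sum]
  congr 1
  exact Finset.sum_congr rfl fun s _ => by ring

theorem avgQ_sum {ι : Type*} (t : Finset ι) (h : (Fin N → Bool) → ℝ) (f : ι → (Fin N → Bool) → ℝ) :
    avgQ β h (fun s => ∑ i ∈ t, f i s) = ∑ i ∈ t, avgQ β h (f i) := by
  simp only [avgQ, Finset.mul_sum]
  rw [Finset.sum_comm, Finset.sum_div]

theorem avgQ_nonneg {h f : (Fin N → Bool) → ℝ} (H : ∀ s, 0 ≤ f s) : 0 ≤ avgQ β h f :=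
  (avgQ_const h 0).symm.le.trans (avgQ_mono H)

theorem abs_avgQ_le {h f : (Fin N → Bool) → ℝ} {C : ℝ} (H : ∀ s, |f s| ≤ C) : |avgQ β h f| ≤ C :=
  abs_le.2 ⟨(avgQ_const h (-C)).symm.le.trans (avgQ_mono fun s => (abs_le.1 (H s)).1),
    (avgQ_mono fun s => (abs_le.1 (H s)).2).trans (avgQ_const h C).le⟩

/-- The pressure lies above its tangent. -/
theorem pressQ_tangent (h h' : (Fin N → Bool) → ℝ) :
    β / (2 * N) * avgQ β h (fun s => h' s - h s) ≤ pressQ β h' - pressQ β h := by
  set m := avgQ β h fun s => β / 2 * (h' s - h s) with hm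
  have hZ := sum_exp_pos (β := β) h
  have hkey : exp m * ∑ s, exp (β / 2 * h s) ≤ ∑ s, exp (β / 2 * h' s) := by
    have h1 : ∀ s, exp m * (exp (β / 2 * h s) * (1 + (β / 2 * (h' s - h s) - m)))
        ≤ exp (β / 2 * h' s) := fun s => by
      have h2 : (1 + (β / 2 * (h' s - h s) - m)) ≤ exp (β / 2 * (h' s - h s) - m) := by
        linarith [add_one_le_exp (β / 2 * (h' s - h s) - m)]
      refine (mul_le_mul_of_nonneg_left (mul_le_mul_of_nonneg_left h2 (exp_pos _).le)
        (exp_pos _).le).trans (le_of_eq ?_)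
      rw [← exp_add, ← exp_add]
      congr 1
      ring
    refine le_trans (le_of_eq ?_) (Finset.sum_le_sum fun s _ => h1 s)
    rw [← Finset.mul_sum]
    congr 1
    have h3 : ∑ s, exp (β / 2 * h s) * (β / 2 * (h' s - h s)) = m * ∑ s, exp (β / 2 * h s) := by
      rw [hm, avgQ, div_mul_cancel₀ _ hZ.ne']
    simp only [mul_add, mul_sub (exp _), Finset.sum_add_distrib, Finset.sum_sub_distrib,
      ← Finset.sum_mul, mul_one]
    rw [h3]
    ring
  have hlog : m + log (∑ s, exp (β / 2 * h s)) ≤ log (∑ s, exp (β / 2 * h' s)) := by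
    have := log_le_log (mul_pos (exp_pos _) hZ) hkey
    rwa [log_mul (exp_pos _).ne' hZ.ne', log_exp] at this
  rw [hm, avgQ_mul] at hlog
  have hp : ((1 : ℝ) / 2) ^ N ≠ 0 := by positivity
  unfold pressQ
  rw [log_mul hp (sum_exp_pos h').ne', log_mul hp hZ.ne', ← sub_div,
    show β / (2 * (N : ℝ)) * avgQ β h (fun s => h' s - h s)
      = (β / 2 * avgQ β h fun s => h' s - h s) / N by ring]
  exact div_le_div_of_nonneg_right (by linarith) (Nat.cast_nonneg N)

theorem spin_sq (b : Bool) : spin b ^ 2 = 1 := by cases b <;> simp [spin]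

theorem sum_sq_rotate {U : Fin N → Fin N → ℝ} (hU : IsOrth U) (s : Fin N → Bool) :
    ∑ i, rotate U s i ^ 2 = N := by
  have h : ∀ i, rotate U s i ^ 2 = ∑ a, ∑ b, spin (s a) * spin (s b) * (U i a * U i b) := fun i => by
    rw [rotate, sq, Finset.sum_mul_sum]
    exact Finset.sum_congr rfl fun a _ => Finset.sum_congr rfl fun b _ => by ring
  simp_rw [h]
  rw [Finset.sum_comm]
  have h2 : ∀ a, ∑ i, ∑ b, spin (s a) * spin (s b) * (U i a * U i b) = 1 := fun a => by
    rw [Finset.sum_comm]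
    simp_rw [← Finset.mul_sum, hU.2 a, mul_ite, mul_one, mul_zero]
    rw [Finset.sum_ite_eq Finset.univ a, if_pos (Finset.mem_univ a), ← sq, spin_sq]
  simp_rw [h2]
  simp

/-- The Gibbs average of the squared `i`th coordinate. -/
noncomputable def weight (β : ℝ) (lam : Fin N → ℝ) (U : Fin N → Fin N → ℝ) (i : Fin N) : ℝ :=
  avgQ β (energy lam U) fun s => rotate U s i ^ 2

theorem weight_nonneg (lam : Fin N → ℝ) (U : Fin N → Fin N → ℝ) (i : Fin N) :
    0 ≤ weight β lam U i :=
  avgQ_nonneg fun _ => sq_nonneg _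

theorem sum_weight (lam : Fin N → ℝ) {U : Fin N → Fin N → ℝ} (hU : IsOrth U) :
    ∑ i, weight β lam U i = N := by
  unfold weight
  rw [← avgQ_sum]
  simp_rw [sum_sq_rotate hU]
  rw [avgQ_const]

theorem weight_le (lam : Fin N → ℝ) {U : Fin N → Fin N → ℝ} (hU : IsOrth U) (i : Fin N) :
    weight β lam U i ≤ N :=
  (Finset.single_le_sum (fun j _ => weight_nonneg lam U j) (Finset.mem_univ i)).trans
    (sum_weight lam hU).le

theorem press_tangent (lam lam' : Fin N → ℝ) (U : Fin N → Fin N → ℝ) :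
    β / (2 * N) * ∑ i, (lam' i - lam i) * weight β lam U i ≤ press β lam' U - press β lam U := by
  rw [press_eq, press_eq]
  refine le_trans (le_of_eq ?_) (pressQ_tangent _ _)
  congr 1
  unfold weight
  simp_rw [← avgQ_mul]
  rw [← avgQ_sum]
  congr 1
  funext s
  rw [energy, energy, ← Finset.sum_sub_distrib]
  exact Finset.sum_congr rfl fun i _ => by ring

/-- Stability of the pressure, weighted by the Gibbs masses of the coordinates. -/
theorem abs_press_sub_le (hβ : 0 ≤ β) (lam lam' : Fin N → ℝ) (U : Fin N → Fin N → ℝ) :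
    |press β lam U - press β lam' U|
      ≤ β / (2 * N) * ∑ i, |lam i - lam' i| * (weight β lam U i + weight β lam' U i) := by
  have hc : 0 ≤ β / (2 * (N : ℝ)) := by positivity
  rw [abs_le]
  constructor
  · refine le_trans ?_ (press_tangent lam' lam U)
    rw [← mul_neg, ← Finset.sum_neg_distrib]
    refine mul_le_mul_of_nonneg_left (Finset.sum_le_sum fun i _ => ?_) hc
    nlinarith [weight_nonneg (β := β) lam U i, weight_nonneg (β := β) lam' U i,
      neg_abs_le (lam i - lam' i), abs_nonneg (lam i - lam' i)]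
  · have h := press_tangent (β := β) lam lam' U
    have h2 : -(β / (2 * (N : ℝ)) * ∑ i, |lam i - lam' i| * (weight β lam U i + weight β lam' U i))
        ≤ β / (2 * N) * ∑ i, (lam' i - lam i) * weight β lam U i := by
      rw [← mul_neg, ← Finset.sum_neg_distrib]
      refine mul_le_mul_of_nonneg_left (Finset.sum_le_sum fun i _ => ?_) hc
      nlinarith [weight_nonneg (β := β) lam U i, weight_nonneg (β := β) lam' U i,
        le_abs_self (lam i - lam' i), abs_nonneg (lam i - lam' i)]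
    linarith

end Vale.Agent.P166
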