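import Vale.Agent.P166.Gibbs

/-!
# P166: the Haar law on orthogonal matrices and its symmetries
-/

open MeasureTheory Real

namespace Vale.Agent.P166

variable {N : ℕ} {β : ℝ}

theorem isOrth_iff (U : Fin N → Fin N → ℝ) :
    IsOrth U ↔ Matrix.of U * (Matrix.of U).transpose = 1 := by
  constructor
  · intro h
    ext a b
    simpa [Matrix.mul_apply, Matrix.one_apply] using h.1 a b
  · intro h
    have h' : (Matrix.of U).transpose * Matrix.of U = 1 := mul_eq_one_comm.1 h
    refine ⟨fun a b => ?_, fun a b => ?_⟩
    · simpa [Matrix.mul_apply, Matrix.one_apply] using congrFun (congrFun h a) b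
    · simpa [Matrix.mul_apply, Matrix.one_apply] using congrFun (congrFun h' a) b

theorem mul_eq_matrix (V U : Fin N → Fin N → ℝ) : Matrix.of (mul V U) = Matrix.of V * Matrix.of U := by
  ext i j
  simp [mul, Matrix.mul_apply]

theorem IsOrth.mul {V U : Fin N → Fin N → ℝ} (hV : IsOrth V) (hU : IsOrth U) :
    IsOrth (P166.mul V U) := by
  rw [isOrth_iff] at hV hU ⊢
  rw [mul_eq_matrix, Matrix.transpose_mul, Matrix.mul_assoc, ← Matrix.mul_assoc (Matrix.of U), hU,
    Matrix.one_mul, hV]

theorem rotate_mul (V U : Fin N → Fin N → ℝ) (s : Fin N → Bool) (i : Fin N) :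
    rotate (mul V U) s i = ∑ k, V i k * rotate U s k := by
  simp only [rotate, mul, Finset.sum_mul, Finset.mul_sum]
  rw [Finset.sum_comm]
  exact Finset.sum_congr rfl fun k _ => Finset.sum_congr rfl fun j _ => mul_assoc _ _ _

theorem IsOrth.abs_le {U : Fin N → Fin N → ℝ} (hU : IsOrth U) (i j : Fin N) : |U i j| ≤ 1 := by
  have h := hU.1 i i
  rw [if_pos rfl] at h
  rw [← sq_le_one_iff_abs_le_one]
  calc U i j ^ 2 = U i j * U i j := sq _
    _ ≤ ∑ k, U i k * U i k :=
      Finset.single_le_sum (fun k _ => mul_self_nonneg (U i k)) (Finset.mem_univ j)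
    _ = 1 := h

theorem continuous_mul (V : Fin N → Fin N → ℝ) : Continuous (mul V) := by
  unfold mul; fun_prop

theorem continuous_rotate (s : Fin N → Bool) (i : Fin N) :
    Continuous fun U : Fin N → Fin N → ℝ => rotate U s i := by
  unfold rotate; fun_prop

theorem continuous_energy (lam : Fin N → ℝ) (s : Fin N → Bool) :
    Continuous fun U : Fin N → Fin N → ℝ => energy lam U s := by
  unfold energy rotate; fun_prop

theorem continuous_avgQ {X : Type*} [TopologicalSpace X] {h f : X → (Fin N → Bool) → ℝ}
    (hh : ∀ s, Continuous fun x => h x s) (hf : ∀ s, Continuous fun x => f x s) :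
    Continuous fun x => avgQ β (h x) (f x) := by
  unfold avgQ
  refine Continuous.div ?_ ?_ fun x => (sum_exp_pos (h x)).ne'
  · exact continuous_finsetSum _ fun s _ => ((hh s).const_mul _).rexp.mul (hf s)
  · exact continuous_finsetSum _ fun s _ => ((hh s).const_mul _).rexp

theorem continuous_pressQ {X : Type*} [TopologicalSpace X] {h : X → (Fin N → Bool) → ℝ}
    (hh : ∀ s, Continuous fun x => h x s) : Continuous fun x => pressQ β (h x) := by
  unfold pressQ
  refine Continuous.div_const (Continuous.log ?_ fun x => ?_) _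
  · exact continuous_const.mul (continuous_finsetSum _ fun s _ => ((hh s).const_mul _).rexp)
  · exact (mul_pos (by positivity) (sum_exp_pos (h x))).ne'

theorem continuous_press (lam : Fin N → ℝ) :
    Continuous fun U : Fin N → Fin N → ℝ => press β lam U :=
  continuous_pressQ (continuous_energy lam)

theorem continuous_weight (lam : Fin N → ℝ) (i : Fin N) :
    Continuous fun U : Fin N → Fin N → ℝ => weight β lam U i :=
  continuous_avgQ (continuous_energy lam) fun s => (continuous_rotate s i).pow 2

variable {m : Measure (Fin N → Fin N → ℝ)}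

theorem integral_left (hm : IsHaarOrth m) {V : Fin N → Fin N → ℝ} (hV : IsOrth V)
    {f : (Fin N → Fin N → ℝ) → ℝ} (hf : Continuous f) :
    ∫ U, f (mul V U) ∂m = ∫ U, f U ∂m := by
  conv_rhs => rw [← hm.2.2 V hV]
  rw [integral_map (continuous_mul V).aemeasurable hf.aestronglyMeasurable]

theorem integrable_of_bound (hm : IsHaarOrth m) {f : (Fin N → Fin N → ℝ) → ℝ} (hf : Continuous f)
    {C : ℝ} (hC : ∀ U, IsOrth U → |f U| ≤ C) : Integrable f m := by
  have := hm.1
  exact Integrable.of_bound hf.aestronglyMeasurable C (hm.2.1.mono fun U hU => hC U hU)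

theorem integral_le_of_orth (hm : IsHaarOrth m) {f g : (Fin N → Fin N → ℝ) → ℝ}
    (hf : Integrable f m) (hg : Integrable g m) (h : ∀ U, IsOrth U → f U ≤ g U) :
    ∫ U, f U ∂m ≤ ∫ U, g U ∂m :=
  integral_mono_ae hf hg (hm.2.1.mono fun U hU => h U hU)

theorem abs_press_le (hβ : 0 ≤ β) (hN : N ≠ 0) (lam : Fin N → ℝ) {U : Fin N → Fin N → ℝ}
    (hU : IsOrth U) : |press β lam U| ≤ β * ∑ i, |lam i| := by
  have h0 : press β (0 : Fin N → ℝ) U = 0 := by
    simp [press]
  have h := abs_press_sub_le hβ lam 0 U
  rw [h0, sub_zero] at h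
  simp only [Pi.zero_apply, sub_zero] at h
  refine h.trans ?_
  have hN' : (0 : ℝ) < N := by exact_mod_cast Nat.pos_of_ne_zero hN
  have h2 : ∑ i, |lam i| * (weight β lam U i + weight β (0 : Fin N → ℝ) U i)
      ≤ ∑ i, |lam i| * (2 * (N : ℝ)) :=
    Finset.sum_le_sum fun i _ => mul_le_mul_of_nonneg_left
      (by linarith [weight_le (β := β) lam hU i, weight_le (β := β) (0 : Fin N → ℝ) hU i])
      (abs_nonneg _)
  calc β / (2 * N) * ∑ i, |lam i| * (weight β lam U i + weight β (0 : Fin N → ℝ) U i)
      ≤ β / (2 * N) * ∑ i, |lam i| * (2 * (N : ℝ)) := mul_le_mul_of_nonneg_left h2 (by positivity)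
    _ = β * ∑ i, |lam i| := by rw [← Finset.sum_mul]; field_simp

theorem integrable_press (hm : IsHaarOrth m) (hβ : 0 ≤ β) (hN : N ≠ 0) (lam : Fin N → ℝ) :
    Integrable (fun U => press β lam U) m :=
  integrable_of_bound hm (continuous_press lam) fun _ hU => abs_press_le hβ hN lam hU

theorem integrable_weight (hm : IsHaarOrth m) (lam : Fin N → ℝ) (i : Fin N) :
    Integrable (fun U => weight β lam U i) m :=
  integrable_of_bound hm (continuous_weight lam i) fun U hU => by
    rw [abs_of_nonneg (weight_nonneg lam U i)]; exact weight_le lam hU i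

/-- The matrix with `U ↦ rows permuted by τ`. -/
noncomputable def permMat (τ : Equiv.Perm (Fin N)) : Fin N → Fin N → ℝ :=
  fun i k => if τ i = k then 1 else 0

theorem isOrth_permMat (τ : Equiv.Perm (Fin N)) : IsOrth (permMat τ) := by
  refine ⟨fun a b => ?_, fun a b => ?_⟩
  · simp [permMat, eq_comm]
  · rw [← τ.symm.sum_comp fun j => permMat τ j a * permMat τ j b]
    simp [permMat, eq_comm]

theorem rotate_perm (τ : Equiv.Perm (Fin N)) (U : Fin N → Fin N → ℝ) (s : Fin N → Bool) (i : Fin N) :
    rotate (mul (permMat τ) U) s i = rotate U s (τ i) := by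
  simp [rotate_mul, permMat]

theorem energy_perm (τ : Equiv.Perm (Fin N)) (lam : Fin N → ℝ) (U : Fin N → Fin N → ℝ) :
    energy (lam ∘ τ) (mul (permMat τ) U) = energy lam U := by
  funext s
  simp only [energy, rotate_perm, Function.comp_apply]
  exact Equiv.sum_comp τ fun i => lam i * rotate U s i ^ 2

theorem press_perm (τ : Equiv.Perm (Fin N)) (lam : Fin N → ℝ) (U : Fin N → Fin N → ℝ) :
    press β (lam ∘ τ) (mul (permMat τ) U) = press β lam U := by
  rw [press_eq, press_eq, energy_perm]

theorem weight_perm (τ : Equiv.Perm (Fin N)) (lam : Fin N → ℝ) (U : Fin N → Fin N → ℝ) (i : Fin N) :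
    weight β (lam ∘ τ) (mul (permMat τ) U) i = weight β lam U (τ i) := by
  simp only [weight, energy_perm, rotate_perm]

/-- The mean weight. -/
noncomputable def mass (β : ℝ) (m : Measure (Fin N → Fin N → ℝ)) (lam : Fin N → ℝ) (i : Fin N) : ℝ :=
  ∫ U, weight β lam U i ∂m

theorem mass_nonneg (lam : Fin N → ℝ) (i : Fin N) : 0 ≤ mass β m lam i :=
  integral_nonneg fun U => weight_nonneg lam U i

theorem sum_mass (hm : IsHaarOrth m) (lam : Fin N → ℝ) : ∑ i, mass β m lam i = N := by
  have := hm.1
  unfold mass
  rw [← integral_finsetSum _ fun i _ => integrable_weight hm lam i,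
    integral_congr_ae (hm.2.1.mono fun U hU => sum_weight lam hU)]
  simp

theorem mass_perm (hm : IsHaarOrth m) (τ : Equiv.Perm (Fin N)) (lam : Fin N → ℝ) (i : Fin N) :
    mass β m (lam ∘ τ) i = mass β m lam (τ i) := by
  unfold mass
  rw [← integral_left hm (isOrth_permMat τ) (continuous_weight (lam ∘ τ) i)]
  exact integral_congr_ae (Filter.Eventually.of_forall fun U => weight_perm τ lam U i)

theorem integral_press_perm (hm : IsHaarOrth m) (τ : Equiv.Perm (Fin N)) (lam : Fin N → ℝ)
    {φ : ℝ → ℝ} (hφ : Continuous φ) :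
    ∫ U, φ (press β (lam ∘ τ) U) ∂m = ∫ U, φ (press β lam U) ∂m := by
  rw [← integral_left hm (isOrth_permMat τ)
    (f := fun U => φ (press β (lam ∘ τ) U)) (hφ.comp (continuous_press _))]
  exact integral_congr_ae (Filter.Eventually.of_forall fun U => by simp only [press_perm])

/-- Larger eigenvalues carry larger Gibbs mass on average. -/
theorem mass_mono (hm : IsHaarOrth m) (hβ : 0 ≤ β) (lam : Fin N → ℝ) {i j : Fin N}
    (h : lam i ≤ lam j) : mass β m lam i ≤ mass β m lam j := by
  rcases Nat.eq_zero_or_pos N with hN | hN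
  · exact (Fin.cast hN i).elim0
  set τ := Equiv.swap i j with hτ
  rcases eq_or_lt_of_le h with he | hlt
  · have hc : lam ∘ τ = lam := by
      funext k
      simp only [Function.comp_apply, hτ, Equiv.swap_apply_def]
      split_ifs with h1 h2 <;> simp [*]
    have := mass_perm (β := β) hm τ lam i
    rw [hc, hτ, Equiv.swap_apply_left] at this
    exact this.le
  rcases eq_or_lt_of_le hβ with hb | hb
  · have hc : ∀ k, mass β m (lam ∘ τ) k = mass β m lam k := fun k => by
      simp only [mass, weight, avgQ, ← hb, zero_div, zero_mul]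
    have := mass_perm (β := β) hm τ lam i
    rw [hc, hτ, Equiv.swap_apply_left] at this
    exact this.le
  have hI : ∀ k, Integrable (fun U => ((lam ∘ τ) k - lam k) * weight β lam U k) m := fun k =>
    (integrable_weight hm lam k).const_mul _
  have h1 : β / (2 * N) * ∑ k, ((lam ∘ τ) k - lam k) * mass β m lam k ≤ 0 := by
    have h2 := integral_mono ((integrable_finsetSum _ fun k _ => hI k).const_mul (β / (2 * N)))
      ((integrable_press hm hβ hN.ne' (lam ∘ τ)).sub (integrable_press hm hβ hN.ne' lam))
      fun U => press_tangent lam (lam ∘ τ) U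
    simp only [Pi.sub_apply] at h2
    rw [integral_const_mul, integral_finsetSum _ fun k _ => hI k,
      integral_sub (integrable_press hm hβ hN.ne' _) (integrable_press hm hβ hN.ne' _)] at h2
    have h4 := integral_press_perm (β := β) hm τ lam continuous_id
    simp only [id] at h4
    rw [h4, sub_self] at h2
    simpa [integral_const_mul, mass] using h2
  have h3 : ∑ k, ((lam ∘ τ) k - lam k) * mass β m lam k
      = (lam j - lam i) * (mass β m lam i - mass β m lam j) := by
    have hij : i ≠ j := fun e => hlt.ne (by rw [e])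
    rw [← Finset.sum_subset (Finset.subset_univ ({i, j} : Finset (Fin N))) fun k _ hk => by
      simp only [Finset.mem_insert, Finset.mem_singleton, not_or] at hk
      simp [hτ, Equiv.swap_apply_of_ne_of_ne hk.1 hk.2]]
    rw [Finset.sum_pair hij]
    simp only [Function.comp_apply, hτ, Equiv.swap_apply_left, Equiv.swap_apply_right]
    ring
  rw [h3] at h1
  have hc : 0 < β / (2 * (N : ℝ)) := by positivity
  by_contra hcon
  nlinarith [mul_pos hc (mul_pos (sub_pos.2 hlt) (sub_pos.2 (not_le.1 hcon)))]

/-- A coordinate below a plateau of `K` maximal entries has mass at most `N / K`. -/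
theorem mass_le_top (hm : IsHaarOrth m) (hβ : 0 ≤ β) (lam : Fin N → ℝ) (K : Finset (Fin N))
    (hK : ∀ i, ∀ j ∈ K, lam i ≤ lam j) (i : Fin N) :
    K.card * mass β m lam i ≤ N := by
  calc (K.card : ℝ) * mass β m lam i = ∑ _j ∈ K, mass β m lam i := by simp
    _ ≤ ∑ j ∈ K, mass β m lam j := Finset.sum_le_sum fun j hj => mass_mono hm hβ lam (hK i j hj)
    _ ≤ ∑ j, mass β m lam j :=
      Finset.sum_le_univ_sum_of_nonneg fun j => mass_nonneg lam j
    _ = N := sum_mass hm lam

theorem integral_abs_press_sub_le (hm : IsHaarOrth m) (hβ : 0 ≤ β) (hN : N ≠ 0)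
    (lam lam' : Fin N → ℝ) :
    ∫ U, |press β lam U - press β lam' U| ∂m
      ≤ β / (2 * N) * ∑ i, |lam i - lam' i| * (mass β m lam i + mass β m lam' i) := by
  have hI : ∀ i, Integrable (fun U => |lam i - lam' i| * (weight β lam U i + weight β lam' U i)) m :=
    fun i => ((integrable_weight hm lam i).add (integrable_weight hm lam' i)).const_mul _
  refine (integral_mono ((integrable_press hm hβ hN lam).sub (integrable_press hm hβ hN lam')).abs
    ((integrable_finsetSum _ fun i _ => hI i).const_mul _)
    fun U => abs_press_sub_le hβ lam lam' U).trans (le_of_eq ?_)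
  rw [integral_const_mul, integral_finsetSum _ fun i _ => hI i]
  congr 1
  refine Finset.sum_congr rfl fun i _ => ?_
  rw [integral_const_mul, integral_add (integrable_weight hm lam i) (integrable_weight hm lam' i)]
  rfl

/-- Distinct coordinates are uncorrelated on average. -/
theorem integral_cross (hm : IsHaarOrth m) (lam : Fin N → ℝ) {i j : Fin N} (hij : i ≠ j) :
    ∫ U, avgQ β (energy lam U) (fun s => rotate U s i * rotate U s j) ∂m = 0 := by
  set V : Fin N → Fin N → ℝ := fun a k => if a = k then (if a = i then -1 else 1) else 0 with hV'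
  have hV : IsOrth V := by
    refine ⟨fun a b => ?_, fun a b => ?_⟩
    · simp only [hV', ite_mul, zero_mul, Finset.sum_ite_eq, Finset.mem_univ, if_true]
      by_cases hab : a = b
      · subst hab; simp; split_ifs <;> norm_num
      · simp [hab, Ne.symm hab]
    · simp only [hV', ite_mul, zero_mul, Finset.sum_ite_eq', Finset.mem_univ, if_true]
      by_cases hab : a = b
      · subst hab; simp; split_ifs <;> norm_num
      · simp [hab]
  have hr : ∀ U s a, rotate (mul V U) s a = (if a = i then -1 else 1) * rotate U s a := fun U s a => by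
    simp [rotate_mul, hV']
  have he : ∀ U, energy lam (mul V U) = energy lam U := fun U => by
    funext s
    refine Finset.sum_congr rfl fun a _ => ?_
    rw [hr]
    split_ifs <;> ring
  have h := integral_left hm hV (f := fun U => avgQ β (energy lam U) fun s => rotate U s i * rotate U s j)
    (continuous_avgQ (continuous_energy lam) fun s => (continuous_rotate s i).mul (continuous_rotate s j))
  have h2 : ∀ U, avgQ β (energy lam (mul V U)) (fun s => rotate (mul V U) s i * rotate (mul V U) s j)
      = -1 * avgQ β (energy lam U) fun s => rotate U s i * rotate U s j := fun U => by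
    rw [← avgQ_mul, he]
    congr 1
    funext s
    rw [hr, hr, if_pos rfl, if_neg (Ne.symm hij)]
    ring
  simp only [h2, integral_const_mul] at h
  linarith

/-- A Haar law exists in every dimension. -/
theorem exists_isHaarOrth (N : ℕ) : ∃ m : Measure (Fin N → Fin N → ℝ), IsHaarOrth m := by
  set G := Matrix.orthogonalGroup (Fin N) ℝ
  have hset : {U : Fin N → Fin N → ℝ | IsOrth U} ⊆ Set.univ.pi fun _ => Set.univ.pi fun _ => Set.Icc (-1) 1 :=
    fun U hU i _ j _ => abs_le.1 (IsOrth.abs_le hU i j)
  have hcl : IsClosed {U : Fin N → Fin N → ℝ | IsOrth U} := by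
    simp only [IsOrth, Set.ofPred_and, Set.ofPred_forall]
    exact IsClosed.inter
      (isClosed_iInter fun a => isClosed_iInter fun b => isClosed_eq (by fun_prop) continuous_const)
      (isClosed_iInter fun a => isClosed_iInter fun b => isClosed_eq (by fun_prop) continuous_const)
  have hcomp : IsCompact {U : Fin N → Fin N → ℝ | IsOrth U} :=
    (isCompact_univ_pi fun _ => isCompact_univ_pi fun _ => isCompact_Icc).of_isClosed_subset hcl hset
  have hG : IsCompact (G : Set (Matrix (Fin N) (Fin N) ℝ)) := by
    have e : (G : Set (Matrix (Fin N) (Fin N) ℝ))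
        = Matrix.of '' {U : Fin N → Fin N → ℝ | IsOrth U} := by
      ext A
      simp only [SetLike.mem_coe, G, Matrix.mem_orthogonalGroup_iff, Set.mem_image, Set.mem_ofPred_eq,
        isOrth_iff]
      exact ⟨fun h => ⟨A, h, rfl⟩, fun ⟨U, h, e⟩ => e ▸ h⟩
    rw [e]
    exact hcomp.image continuous_id
  have : CompactSpace G := isCompact_iff_compactSpace.1 hG
  let _ : MeasurableSpace G := borel G
  have : BorelSpace G := ⟨rfl⟩
  let F : G → (Fin N → Fin N → ℝ) := fun g i j => (g : Matrix (Fin N) (Fin N) ℝ) i j
  have hF : Continuous F :=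
    continuous_pi fun i => continuous_pi fun j =>
      (continuous_apply j).comp ((continuous_apply i).comp continuous_subtype_val)
  have hFo : ∀ g, IsOrth (F g) := fun g => (isOrth_iff _).2 ((Matrix.mem_orthogonalGroup_iff (Fin N) ℝ).1 g.2)
  let h := Measure.haarMeasure (⊤ : TopologicalSpace.PositiveCompacts G)
  have : IsProbabilityMeasure h := ⟨by
    have := Measure.haarMeasure_self (K₀ := (⊤ : TopologicalSpace.PositiveCompacts G))
    simpa [h] using this⟩
  refine ⟨h.map F, Measure.isProbabilityMeasure_map hF.aemeasurable,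
    (ae_map_iff hF.aemeasurable hcl.measurableSet).2 (Filter.Eventually.of_forall hFo),
    fun V hV => ?_⟩
  let v : G := ⟨Matrix.of V, (Matrix.mem_orthogonalGroup_iff (Fin N) ℝ).2 ((isOrth_iff V).1 hV)⟩
  have e : mul V ∘ F = F ∘ fun g => v * g := by
    funext g i j
    simp only [Function.comp_apply, F, mul]
    exact (Matrix.mul_apply (M := Matrix.of V) (N := (g : Matrix (Fin N) (Fin N) ℝ)) (i := i) (k := j)).symm
  rw [Measure.map_map (continuous_mul V).measurable hF.measurable, e,
    ← Measure.map_map hF.measurable (continuous_const_mul v).measurable,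
    map_mul_left_eq_self h v]

end Vale.Agent.P166
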