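import Vale.Agent.P150.Gauss

/-!
# P166: rotation invariance and concentration for independent Gaussian variables
-/

open MeasureTheory ProbabilityTheory Real

namespace Vale.Agent.P166

open P150 (stdPi std)

variable {κ : Type*} [Fintype κ]

/-- Orthogonal maps preserve independent standard normal variables. -/
theorem measurePreserving_orth [DecidableEq κ] (M : Matrix κ κ ℝ) (hM : M.transpose * M = 1) :
    MeasurePreserving (fun g => M.mulVec g) (stdPi κ) (stdPi κ) := by
  have hmeas : Measurable fun g : κ → ℝ => M.mulVec g := by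
    exact (continuous_const.matrix_mulVec continuous_id).measurable
  refine ⟨hmeas, ?_⟩
  let L : EuclideanSpace ℝ κ →ₗ[ℝ] EuclideanSpace ℝ κ := Matrix.toEuclideanLin M
  have hL : ∀ x y, inner ℝ (L x) (L y) = (inner ℝ x y : ℝ) := fun x y => by
    simp only [EuclideanSpace.inner_eq_star_dotProduct, L, Matrix.ofLp_toLpLin, Matrix.toLin'_apply,
      star_trivial]
    rw [Matrix.dotProduct_mulVec, ← Matrix.mulVec_transpose, Matrix.mulVec_mulVec, hM, Matrix.one_mulVec]
  let e := (L.isometryOfInner hL).toLinearIsometryEquiv rfl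
  have h1 : (stdPi κ).map (WithLp.toLp 2) = stdGaussian (EuclideanSpace ℝ κ) := map_pi_eq_stdGaussian
  have h2 : Measurable (WithLp.ofLp : EuclideanSpace ℝ κ → κ → ℝ) := by fun_prop
  have h3 : Measurable (WithLp.toLp 2 : (κ → ℝ) → EuclideanSpace ℝ κ) := by fun_prop
  have key : (fun g => M.mulVec g) = WithLp.ofLp ∘ e ∘ WithLp.toLp 2 := by
    funext g
    simp [e, L]
  rw [key, ← Measure.map_map h2 (e.continuous.measurable.comp h3),
    ← Measure.map_map e.continuous.measurable h3, h1, stdGaussian_map, ← h1, Measure.map_map h2 h3]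
  exact Measure.map_id

/-- Rotating a pair of independent copies. -/
theorem measurePreserving_pair (c s : ℝ) (h : c ^ 2 + s ^ 2 = 1) :
    MeasurePreserving (fun p : (κ → ℝ) × (κ → ℝ) => (c • p.1 + s • p.2, (-s) • p.1 + c • p.2))
      ((stdPi κ).prod (stdPi κ)) ((stdPi κ).prod (stdPi κ)) := by
  classical
  let M : Matrix (κ ⊕ κ) (κ ⊕ κ) ℝ := Matrix.fromBlocks (c • 1) (s • 1) ((-s) • 1) (c • 1)
  have hM : M.transpose * M = 1 := by
    simp only [M, Matrix.fromBlocks_transpose, Matrix.fromBlocks_multiply, Matrix.transpose_smul,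
      Matrix.transpose_one, Matrix.smul_mul, Matrix.mul_smul, Matrix.one_mul, smul_smul, ← add_smul]
    rw [show c * c + -s * -s = 1 by linear_combination h, show c * s + -s * c = 0 by ring,
      show s * c + c * -s = 0 by ring, show s * s + c * c = 1 by linear_combination h,
      one_smul, zero_smul, Matrix.fromBlocks_one]
  have e := measurePreserving_sumPiEquivProdPi (fun _ : κ ⊕ κ => std)
  have key : (fun p : (κ → ℝ) × (κ → ℝ) => (c • p.1 + s • p.2, (-s) • p.1 + c • p.2))
      = MeasurableEquiv.sumPiEquivProdPi (fun _ : κ ⊕ κ => ℝ) ∘ (fun g => M.mulVec g)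
        ∘ (MeasurableEquiv.sumPiEquivProdPi fun _ : κ ⊕ κ => ℝ).symm := by
    funext p
    refine Prod.ext (funext fun i => ?_) (funext fun i => ?_) <;>
      simp [M, MeasurableEquiv.sumPiEquivProdPi, Equiv.sumPiEquivProdPi, Matrix.mulVec, dotProduct,
        Fintype.sum_sum_type, Matrix.one_apply]
  rw [key]
  exact e.comp ((measurePreserving_orth M hM).comp (e.symm _))

/-- A linear functional with unit coefficient vector has mean absolute value at most two. -/
theorem integral_abs_dot_le (v : κ → ℝ) {L : ℝ} (hL : 0 < L) (hv : ∑ p, v p ^ 2 ≤ L ^ 2) :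
    ∫ g, |∑ p, v p * g p| ∂stdPi κ ≤ 2 * L := by
  set w : κ → ℝ := fun p => v p / L
  have hw : ∑ p, w p ^ 2 ≤ 1 := by
    simp only [w, div_pow, ← Finset.sum_div]
    exact (div_le_one (by positivity)).2 hv
  have hneg : ∀ g : κ → ℝ, ∑ p, -w p * g p = -∑ p, w p * g p := fun g => by simp
  have hi1 := P150.integrable_exp_dot w
  have hi2 := P150.integrable_exp_dot fun p => -w p
  have hpt : ∀ g : κ → ℝ,
      |∑ p, v p * g p| ≤ L / 2 * (exp (∑ p, w p * g p) + exp (∑ p, -w p * g p)) := fun g => by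
    have e : ∑ p, v p * g p = L * ∑ p, w p * g p := by
      rw [Finset.mul_sum]
      exact Finset.sum_congr rfl fun p _ => by simp only [w]; field_simp
    rw [e, hneg, abs_mul, abs_of_pos hL]
    set x := ∑ p, w p * g p
    have h1 := quadratic_le_exp_of_nonneg (abs_nonneg x)
    have h2 : exp |x| ≤ exp x + exp (-x) := by
      rcases abs_choice x with hx | hx <;> rw [hx] <;> linarith [exp_pos x, exp_pos (-x)]
    have h3 : 2 * |x| ≤ exp |x| := by nlinarith [sq_nonneg (|x| - 1)]
    nlinarith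
  refine (integral_mono_of_nonneg (Filter.Eventually.of_forall fun g => abs_nonneg _)
    ((hi1.add hi2).const_mul (L / 2)) (Filter.Eventually.of_forall hpt)).trans ?_
  simp only [Pi.add_apply]
  rw [integral_const_mul, integral_add hi1 hi2, P150.integral_exp_dot, P150.integral_exp_dot]
  simp only [neg_sq]
  have h1 : exp ((∑ p, w p ^ 2) / 2) ≤ 2 := by
    refine (exp_le_exp.2 (show (∑ p, w p ^ 2) / 2 ≤ 1 / 2 by linarith)).trans ?_
    refine (exp_bound_div_one_sub_of_interval (by norm_num) (by norm_num)).trans ?_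
    norm_num
  nlinarith

/-- The integrable majorant. -/
noncomputable def size (g : κ → ℝ) : ℝ := ∑ p, (1 + g p ^ 2)

theorem integrable_size : Integrable (size : (κ → ℝ) → ℝ) (stdPi κ) :=
  integrable_finsetSum _ fun p _ => (integrable_const 1).add
    ((P150.measurePreserving_coord p).integrable_comp_of_integrable
      ((memLp_id_gaussianReal' (μ := 0) (v := 1) 2 ENNReal.ofNat_ne_top).integrable_sq))

theorem sum_sq_le_size (g : κ → ℝ) : ∑ p, g p ^ 2 ≤ size g :=
  Finset.sum_le_sum fun p _ => by linarith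

theorem size_nonneg (g : κ → ℝ) : 0 ≤ size g :=
  Finset.sum_nonneg fun p _ => by positivity

theorem abs_dot_le_size {v : κ → ℝ} {L : ℝ} (hL : 0 ≤ L) (hv : ∑ p, v p ^ 2 ≤ L ^ 2) (g : κ → ℝ) :
    |∑ p, v p * g p| ≤ L * size g := by
  rw [size, Finset.mul_sum]
  refine (Finset.abs_sum_le_sum_abs _ _).trans (Finset.sum_le_sum fun p _ => ?_)
  rw [abs_mul]
  have h1 : |v p| ≤ L := by
    refine abs_le_of_sq_le_sq ((Finset.single_le_sum (fun q _ => sq_nonneg (v q))
      (Finset.mem_univ p)).trans hv) hL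
  have h2 : |g p| ≤ 1 + g p ^ 2 := by nlinarith [sq_nonneg (|g p| - 1), sq_abs (g p), abs_nonneg (g p)]
  exact mul_le_mul h1 h2 (abs_nonneg _) hL

/-- A two-sided first-order expansion with gradient of norm at most `L`. -/
structure Expansion (f : (κ → ℝ) → ℝ) (D : (κ → ℝ) → κ → ℝ) (L K : ℝ) : Prop where
  L_pos : 0 < L
  K_nonneg : 0 ≤ K
  contf : Continuous f
  contD : Continuous D
  bound : ∀ a, ∑ p, D a p ^ 2 ≤ L ^ 2
  expand : ∀ a b, |f b - f a| ≤ |∑ p, D a p * (b p - a p)| + |∑ p, D b p * (b p - a p)|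
    + K * ∑ p, (b p - a p) ^ 2

variable {f : (κ → ℝ) → ℝ} {D : (κ → ℝ) → κ → ℝ} {L K : ℝ}

theorem Expansion.integrable (H : Expansion f D L K) : Integrable f (stdPi κ) := by
  refine Integrable.mono' ((integrable_const |f 0|).add (integrable_size.const_mul (2 * L + K)))
    H.contf.aestronglyMeasurable (Filter.Eventually.of_forall fun g => ?_)
  have h := H.expand 0 g
  simp only [Pi.zero_apply, sub_zero] at h
  simp only [Pi.add_apply, norm_eq_abs]
  nlinarith [abs_dot_le_size H.L_pos.le (H.bound 0) g, abs_dot_le_size H.L_pos.le (H.bound g) g,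
    sum_sq_le_size g, H.K_nonneg, abs_sub_abs_le_abs_sub (f g) (f 0), size_nonneg g, H.L_pos.le]

/-- One small rotation step. -/
theorem Expansion.step (H : Expansion f D L K) (θ : ℝ) (hθ : 0 ≤ θ) :
    ∫ p, |f (cos θ • p.1 + sin θ • p.2) - f p.1| ∂(stdPi κ).prod (stdPi κ)
      ≤ 4 * L * θ + (L + 4 * K) * (∫ g, size g ∂stdPi κ) * θ ^ 2 := by
  set P := (stdPi κ).prod (stdPi κ)
  set c := cos θ
  set s := sin θ
  have hcs : c ^ 2 + s ^ 2 = 1 := cos_sq_add_sin_sq θ
  have hc1 : |c - 1| ≤ θ ^ 2 / 2 := by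
    rw [abs_le]; constructor <;> nlinarith [one_sub_sq_div_two_le_cos (x := θ), cos_le_one θ, sq_nonneg θ]
  have hs : |s| ≤ θ := (abs_sin_le_abs).trans (le_of_eq (abs_of_nonneg hθ))
  have hc2 : (c - 1) ^ 2 + s ^ 2 ≤ θ ^ 2 := by
    nlinarith [one_sub_sq_div_two_le_cos (x := θ), sq_abs s]
  set Φ : (κ → ℝ) × (κ → ℝ) → (κ → ℝ) × (κ → ℝ) := fun p => (c • p.1 + s • p.2, (-s) • p.1 + c • p.2)
  have hΦ : MeasurePreserving Φ P P := measurePreserving_pair c s hcs
  set a : (κ → ℝ) × (κ → ℝ) → ℝ := fun p => |∑ q, D p.1 q * ((c - 1) * p.1 q + s * p.2 q)| with ha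
  set b : (κ → ℝ) × (κ → ℝ) → ℝ := fun p => |∑ q, D p.1 q * ((1 - c) * p.1 q + s * p.2 q)| with hb
  set r : (κ → ℝ) × (κ → ℝ) → ℝ := fun p => 2 * ((c - 1) ^ 2 + s ^ 2) * (size p.1 + size p.2) with hr
  have hS1 : Integrable (fun p : (κ → ℝ) × (κ → ℝ) => size p.1) P := integrable_size.comp_fst _
  have hS2 : Integrable (fun p : (κ → ℝ) × (κ → ℝ) => size p.2) P := integrable_size.comp_snd _
  have hcD : Continuous fun p : (κ → ℝ) × (κ → ℝ) => D p.1 := H.contD.comp continuous_fst
  have hlin : ∀ u v : ℝ, ∀ p : (κ → ℝ) × (κ → ℝ),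
      |∑ q, D p.1 q * (u * p.1 q + v * p.2 q)| ≤ |u| * (L * size p.1) + |v| * |∑ q, D p.1 q * p.2 q| :=
    fun u v p => by
      have e : ∑ q, D p.1 q * (u * p.1 q + v * p.2 q)
          = u * ∑ q, D p.1 q * p.1 q + v * ∑ q, D p.1 q * p.2 q := by
        rw [Finset.mul_sum, Finset.mul_sum, ← Finset.sum_add_distrib]
        exact Finset.sum_congr rfl fun q _ => by ring
      rw [e]
      refine (abs_add_le _ _).trans (add_le_add ?_ (le_of_eq (abs_mul _ _)))
      rw [abs_mul]
      exact mul_le_mul_of_nonneg_left (abs_dot_le_size H.L_pos.le (H.bound _) _) (abs_nonneg _)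
  have hdotI : Integrable (fun p : (κ → ℝ) × (κ → ℝ) => |∑ q, D p.1 q * p.2 q|) P := by
    refine Integrable.mono' (hS2.const_mul L) ?_ (Filter.Eventually.of_forall fun p => ?_)
    · exact Continuous.aestronglyMeasurable (continuous_finsetSum _ fun q _ =>
        ((continuous_apply q).comp hcD).mul ((continuous_apply q).comp continuous_snd)).abs
    · rw [norm_eq_abs, abs_abs]; exact abs_dot_le_size H.L_pos.le (H.bound _) _
  have hmean : ∫ p, |∑ q, D p.1 q * p.2 q| ∂P ≤ 2 * L := by
    rw [integral_prod _ hdotI]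
    refine (integral_mono hdotI.integral_prod_left (integrable_const (2 * L))
      fun x => integral_abs_dot_le (D x) H.L_pos (H.bound x)).trans (le_of_eq ?_)
    simp
  have habI : ∀ u v : ℝ, Integrable (fun p : (κ → ℝ) × (κ → ℝ) =>
      |∑ q, D p.1 q * (u * p.1 q + v * p.2 q)|) P ∧
      ∫ p, |∑ q, D p.1 q * (u * p.1 q + v * p.2 q)| ∂P ≤ |u| * (L * ∫ g, size g ∂stdPi κ) + |v| * (2 * L) := by
    intro u v
    have hI2 : Integrable (fun p : (κ → ℝ) × (κ → ℝ) =>
        |u| * (L * size p.1) + |v| * |∑ q, D p.1 q * p.2 q|) P :=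
      ((hS1.const_mul L).const_mul |u|).add (hdotI.const_mul |v|)
    have hI : Integrable (fun p : (κ → ℝ) × (κ → ℝ) => |∑ q, D p.1 q * (u * p.1 q + v * p.2 q)|) P :=
      Integrable.mono' hI2 (Continuous.aestronglyMeasurable (continuous_finsetSum _ fun q _ =>
        ((continuous_apply q).comp hcD).mul (by fun_prop)).abs)
        (Filter.Eventually.of_forall fun p => by rw [norm_eq_abs, abs_abs]; exact hlin u v p)
    refine ⟨hI, (integral_mono hI hI2 (hlin u v)).trans ?_⟩
    rw [integral_add ((hS1.const_mul L).const_mul |u|) (hdotI.const_mul |v|), integral_const_mul,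
      integral_const_mul, integral_const_mul, integral_fun_fst]
    simp only [probReal_univ, one_smul]
    gcongr
  obtain ⟨haI, hab⟩ := habI (c - 1) s
  obtain ⟨hbI, hbb⟩ := habI (1 - c) s
  have hbΦ : Integrable (fun p => b (Φ p)) P := hΦ.integrable_comp_of_integrable hbI
  have hrI : Integrable r P := (hS1.add hS2).const_mul _
  have hpt : ∀ p, |f (c • p.1 + s • p.2) - f p.1| ≤ a p + b (Φ p) + K * r p := fun p => by
    refine (H.expand p.1 (c • p.1 + s • p.2)).trans (add_le_add (add_le_add ?_ ?_) ?_)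
    · refine le_of_eq (congrArg abs (Finset.sum_congr rfl fun q _ => ?_))
      simp only [Pi.add_apply, Pi.smul_apply, smul_eq_mul]; ring
    · refine le_of_eq (congrArg abs (Finset.sum_congr rfl fun q _ => ?_))
      simp only [Φ, Pi.add_apply, Pi.smul_apply, smul_eq_mul]
      linear_combination (D (c • p.1 + s • p.2) q * p.1 q) * hcs
    · refine mul_le_mul_of_nonneg_left ?_ H.K_nonneg
      simp only [r, size, ← Finset.sum_add_distrib, Finset.mul_sum, Pi.add_apply, Pi.smul_apply, smul_eq_mul]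
      refine Finset.sum_le_sum fun q _ => ?_
      nlinarith [sq_nonneg ((c - 1) * p.1 q - s * p.2 q), sq_nonneg (c - 1), sq_nonneg s,
        mul_nonneg (sq_nonneg (c - 1)) (sq_nonneg (p.2 q)), mul_nonneg (sq_nonneg s) (sq_nonneg (p.1 q))]
  have hfI : Integrable (fun p : (κ → ℝ) × (κ → ℝ) => |f (c • p.1 + s • p.2) - f p.1|) P :=
    (((hΦ.integrable_comp_of_integrable (H.integrable.comp_fst _)).sub (H.integrable.comp_fst _))).abs
  have habIΦ : ∫ p, b (Φ p) ∂P = ∫ p, b p ∂P := by
    conv_rhs => rw [← hΦ.map_eq]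
    rw [integral_map hΦ.measurable.aemeasurable (by rw [hΦ.map_eq]; exact hbI.1)]
  refine (integral_mono hfI ((haI.add hbΦ).add (hrI.const_mul K)) hpt).trans ?_
  simp only [Pi.add_apply]
  have hab' : Integrable (fun p => a p + b (Φ p)) P := haI.add hbΦ
  rw [integral_add hab' (hrI.const_mul K), integral_add haI hbΦ, habIΦ, integral_const_mul,
    integral_const_mul, integral_add hS1 hS2, integral_fun_fst, integral_fun_snd]
  simp only [probReal_univ, one_smul]
  set S := ∫ g, size g ∂stdPi κ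
  have hS0 : 0 ≤ S := integral_nonneg size_nonneg
  rw [abs_sub_comm 1 c] at hbb
  nlinarith [mul_le_mul_of_nonneg_right hc1 (mul_nonneg H.L_pos.le hS0),
    mul_le_mul_of_nonneg_right hs (by linarith [H.L_pos] : (0 : ℝ) ≤ 4 * L),
    mul_le_mul_of_nonneg_left hc2 (by positivity [H.K_nonneg] : (0 : ℝ) ≤ 4 * K * S)]

/-- Concentration in mean of a function with a first-order expansion. -/
theorem Expansion.concentration (H : Expansion f D L K) :
    ∫ g, |f g - ∫ g', f g' ∂stdPi κ| ∂stdPi κ ≤ 8 * L := by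
  set P := (stdPi κ).prod (stdPi κ)
  set S := ∫ g, size g ∂stdPi κ
  have hS0 : 0 ≤ S := integral_nonneg size_nonneg
  have hI1 : Integrable (fun p : (κ → ℝ) × (κ → ℝ) => f p.1) P := H.integrable.comp_fst _
  have hI2 : Integrable (fun p : (κ → ℝ) × (κ → ℝ) => f p.2) P := H.integrable.comp_snd _
  have hpair : ∀ n : ℕ, 0 < n →
      ∫ p, |f p.2 - f p.1| ∂P ≤ 2 * π * L + (L + 4 * K) * S * π ^ 2 / 4 / n := by
    intro n hn
    have hn' : (0 : ℝ) < n := by exact_mod_cast hn
    set θ := π / 2 / n with hθ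
    have hθ0 : 0 ≤ θ := by positivity
    set R : ℝ → (κ → ℝ) × (κ → ℝ) → (κ → ℝ) × (κ → ℝ) := fun φ p =>
      (cos φ • p.1 + sin φ • p.2, (-sin φ) • p.1 + cos φ • p.2)
    have hR : ∀ φ, MeasurePreserving (R φ) P P := fun φ => measurePreserving_pair _ _ (cos_sq_add_sin_sq φ)
    have hstep : ∀ l : ℕ, Integrable (fun p => |f (R ((l + 1 : ℕ) * θ) p).1 - f (R (l * θ) p).1|) P ∧
        ∫ p, |f (R ((l + 1 : ℕ) * θ) p).1 - f (R (l * θ) p).1| ∂P
          ≤ 4 * L * θ + (L + 4 * K) * S * θ ^ 2 := by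
      intro l
      set F : (κ → ℝ) × (κ → ℝ) → ℝ := fun p => |f (R θ p).1 - f p.1| with hF
      have hFI : Integrable F P := (((hR θ).integrable_comp_of_integrable hI1).sub hI1).abs
      have e : (fun p => |f (R ((l + 1 : ℕ) * θ) p).1 - f (R (l * θ) p).1|) = fun p => F (R (l * θ) p) := by
        funext p
        simp only [F, R]
        congr 3
        rw [show ((l + 1 : ℕ) : ℝ) * θ = θ + l * θ by push_cast; ring, cos_add, sin_add]
        funext q
        simp only [Pi.add_apply, Pi.smul_apply, smul_eq_mul]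
        ring
      rw [e]
      refine ⟨(hR _).integrable_comp_of_integrable hFI, le_trans (le_of_eq ?_) (H.step θ hθ0)⟩
      change ∫ p, F (R (l * θ) p) ∂P = ∫ p, F p ∂P
      conv_rhs => rw [← (hR (l * θ)).map_eq]
      rw [integral_map (hR _).measurable.aemeasurable (by rw [(hR _).map_eq]; exact hFI.1)]
    have hend : ∀ p, |f p.2 - f p.1|
        ≤ ∑ l ∈ Finset.range n, |f (R ((l + 1 : ℕ) * θ) p).1 - f (R (l * θ) p).1| := fun p => by
      have h1 := Finset.sum_range_sub (fun l : ℕ => f (R (l * θ) p).1) n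
      have e1 : (R ((n : ℕ) * θ) p).1 = p.2 := by
        simp only [R, hθ, mul_div_cancel₀ _ hn'.ne', cos_pi_div_two, sin_pi_div_two, zero_smul,
          one_smul, zero_add]
      have e0 : (R ((0 : ℕ) * θ) p).1 = p.1 := by simp [R]
      rw [e1, e0] at h1
      rw [← h1]
      exact Finset.abs_sum_le_sum_abs _ _
    refine (integral_mono (hI2.sub hI1).abs (integrable_finsetSum _ fun l _ => (hstep l).1) hend).trans ?_
    rw [integral_finsetSum _ fun l _ => (hstep l).1]
    refine (Finset.sum_le_sum fun l _ => (hstep l).2).trans (le_of_eq ?_)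
    rw [Finset.sum_const, Finset.card_range, nsmul_eq_mul, hθ]
    field_simp
    ring
  have hlim : ∫ p, |f p.2 - f p.1| ∂P ≤ 2 * π * L := by
    refine ge_of_tendsto ?_ (Filter.eventually_atTop.2 ⟨1, fun n hn => hpair n hn⟩)
    have h := (tendsto_const_div_atTop_nhds_zero_nat ((L + 4 * K) * S * π ^ 2 / 4)).const_add (2 * π * L)
    rwa [add_zero] at h
  have h1 : ∀ g, |f g - ∫ g', f g' ∂stdPi κ| ≤ ∫ g', |f g' - f g| ∂stdPi κ := fun g => by
    have e : f g - ∫ g', f g' ∂stdPi κ = -∫ g', (f g' - f g) ∂stdPi κ := by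
      rw [integral_sub H.integrable (integrable_const _)]
      simp
    rw [e, abs_neg]
    exact abs_integral_le_integral_abs
  have hP : Integrable (fun p : (κ → ℝ) × (κ → ℝ) => |f p.2 - f p.1|) P := (hI2.sub hI1).abs
  calc ∫ g, |f g - ∫ g', f g' ∂stdPi κ| ∂stdPi κ ≤ ∫ g, ∫ g', |f g' - f g| ∂stdPi κ ∂stdPi κ :=
        integral_mono (H.integrable.sub (integrable_const _)).abs hP.integral_prod_left h1
    _ = ∫ p, |f p.2 - f p.1| ∂P := (integral_prod _ hP).symm
    _ ≤ 2 * π * L := hlim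
    _ ≤ 8 * L := by nlinarith [pi_le_four, H.L_pos]

end Vale.Agent.P166
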