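import Mathlib

/-!
# P166: the model

An orthogonal matrix is an array `U : Fin N → Fin N → ℝ` with orthonormal rows and columns.
-/

open MeasureTheory

namespace Vale.Agent.P166

/-- The spin value `±1` of a Boolean. -/
noncomputable def spin (b : Bool) : ℝ := if b then 1 else -1

/-- The coordinates of `U σ`. -/
noncomputable def rotate {N : ℕ} (U : Fin N → Fin N → ℝ) (s : Fin N → Bool) (i : Fin N) : ℝ :=
  ∑ j, U i j * spin (s j)

/-- The pressure `N⁻¹ log (2^(-N) ∑_σ exp (β/2 · σᵀ Uᵀ Λ U σ))`, `Λ` the diagonal matrix of `lam`. -/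
noncomputable def press {N : ℕ} (β : ℝ) (lam : Fin N → ℝ) (U : Fin N → Fin N → ℝ) : ℝ :=
  Real.log ((1 / 2) ^ N * ∑ s : Fin N → Bool,
    Real.exp (β / 2 * ∑ i, lam i * rotate U s i ^ 2)) / N

/-- Orthonormal rows and orthonormal columns. -/
def IsOrth {N : ℕ} (U : Fin N → Fin N → ℝ) : Prop :=
  (∀ a b, ∑ j, U a j * U b j = if a = b then 1 else 0) ∧
    ∀ a b, ∑ j, U j a * U j b = if a = b then 1 else 0

/-- The matrix product `V U`. -/
noncomputable def mul {N : ℕ} (V U : Fin N → Fin N → ℝ) : Fin N → Fin N → ℝ :=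
  fun i j => ∑ k, V i k * U k j

/-- Haar probability law on orthogonal matrices: carried by them and invariant under left
multiplication by each of them. -/
def IsHaarOrth {N : ℕ} (m : Measure (Fin N → Fin N → ℝ)) : Prop :=
  IsProbabilityMeasure m ∧ (∀ᵐ U ∂m, IsOrth U) ∧ ∀ V, IsOrth V → m.map (mul V) = m

/-- `b` is the largest point of the support of `μ`. -/
def IsTopEdge (μ : Measure ℝ) (b : ℝ) : Prop :=
  μ (Set.Ioi b) = 0 ∧ ∀ ε : ℝ, 0 < ε → 0 < μ (Set.Ioi (b - ε))

/-- The empirical laws converge weakly to `μ`, the largest entries have limsup at most `b`, and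
the entries are eventually bounded below. -/
def Admissible (μ : Measure ℝ) (b : ℝ) (lam : ∀ N, Fin N → ℝ) : Prop :=
  (∀ f : ℝ → ℝ, Continuous f → (∃ C, ∀ x, |f x| ≤ C) →
      Filter.Tendsto (fun N : ℕ => (∑ i, f (lam N i)) / N) Filter.atTop (nhds (∫ x, f x ∂μ))) ∧
    (∀ ε : ℝ, 0 < ε → ∀ᶠ N in Filter.atTop, ∀ i, lam N i ≤ b + ε) ∧
    ∃ a : ℝ, ∀ᶠ N in Filter.atTop, ∀ i, a ≤ lam N i

end Vale.Agent.P166
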