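import Vale.Agent.P166.Realise

/-!
# P166: the pressure is asymptotically deterministic and depends on the limiting law only
-/

open MeasureTheory Filter Topology Real

namespace Vale.Agent.P166

variable {N : ℕ} {β : ℝ}

/-- The indicator of `Ioi t` as a number. -/
noncomputable def above (t x : ℝ) : ℝ := if t < x then 1 else 0

/-- Rounding down to the grid `t₀ + δ ℕ`, capped at `M` steps. -/
noncomputable def quant (M : ℕ) (t₀ δ x : ℝ) : ℝ :=
  t₀ + δ * ∑ l : Fin M, above (t₀ + (l.val + 1) * δ) x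

theorem abs_quant_sub_le {t₀ δ x : ℝ} (hδ : 0 < δ) :
    ∀ M : ℕ, t₀ < x → x ≤ t₀ + (M + 2) * δ → |quant M t₀ δ x - x| ≤ 2 * δ
  | 0, h1, h2 => by
    simp only [quant, Finset.univ_eq_empty, Finset.sum_empty, Nat.cast_zero, zero_add, mul_zero, add_zero] at h2 ⊢
    rw [abs_le]; constructor <;> linarith
  | M + 1, h1, h2 => by
    by_cases h : t₀ + (M + 1) * δ < x
    · have hall : ∀ l : Fin (M + 1), above (t₀ + (l.val + 1) * δ) x = 1 := fun l => by
        have hl : (l.val : ℝ) ≤ M := by exact_mod_cast Nat.lt_succ_iff.1 l.2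
        rw [above, if_pos]
        nlinarith
      simp only [quant, hall, Finset.sum_const, Finset.card_univ, Fintype.card_fin, nsmul_eq_mul, mul_one]
      push_cast at h2 ⊢
      rw [abs_le]; constructor <;> linarith
    · have e : quant (M + 1) t₀ δ x = quant M t₀ δ x := by
        simp only [quant, Fin.sum_univ_castSucc, Fin.val_last, Fin.val_castSucc, above, if_neg h, add_zero]
      rw [e]
      exact abs_quant_sub_le hδ M h1 (by nlinarith [not_lt.1 h])

/-- The number of entries above `t`. -/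
noncomputable def count (lam : Fin N → ℝ) (t : ℝ) : ℕ := (Finset.univ.filter fun i => t < lam i).card

theorem mem_iff_lt_card {S : Finset (Fin N)} (hS : ∀ i j, j ≤ i → i ∈ S → j ∈ S) (i : Fin N) :
    i ∈ S ↔ i.val < S.card := by
  constructor
  · intro hi
    have h : Finset.Iic i ⊆ S := fun j hj => hS i j (Finset.mem_Iic.1 hj) hi
    have := Finset.card_le_card h
    rw [Fin.card_Iic] at this
    omega
  · intro hi
    by_contra hn
    have h : S ⊆ Finset.Iio i := fun j hj => Finset.mem_Iio.2 (lt_of_not_ge fun hij => hn (hS j i hij hj))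
    have := Finset.card_le_card h
    rw [Fin.card_Iio] at this
    omega

theorem exists_sorted (lam : Fin N → ℝ) :
    ∃ τ : Equiv.Perm (Fin N), ∀ t i, t < lam (τ i) ↔ i.val < count lam t := by
  refine ⟨Tuple.sort fun i => -lam i, fun t i => ?_⟩
  set τ := Tuple.sort fun i => -lam i with hτ
  have hmono : Monotone fun i => -lam (τ i) := Tuple.monotone_sort fun i => -lam i
  have hcard : (Finset.univ.filter fun j => t < lam (τ j)).card = count lam t := by
    refine Finset.card_bij (fun j _ => τ j) (fun j hj => by simpa using hj) (fun a _ b _ h => τ.injective h)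
      fun b hb => ⟨τ.symm b, by simpa using hb, τ.apply_symm_apply b⟩
  rw [← hcard, ← mem_iff_lt_card]
  · simp
  · intro a b hba ha
    have h : -lam (τ b) ≤ -lam (τ a) := hmono hba
    simp only [Finset.mem_filter, Finset.mem_univ, true_and] at ha ⊢
    linarith

theorem quant_sorted {lam : Fin N → ℝ} {τ : Equiv.Perm (Fin N)}
    (hτ : ∀ t i, t < lam (τ i) ↔ i.val < count lam t) (M : ℕ) (t₀ δ : ℝ) :
    (fun i => quant M t₀ δ (lam i)) ∘ τ
      = stepVec N t₀ δ fun l : Fin M => count lam (t₀ + (l.val + 1) * δ) := by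
  funext i
  simp only [Function.comp_apply, quant, stepVec, above, hτ]

/-- A bump between the indicators of `Ioi (t - h)` and `Ioi t`. -/
noncomputable def ramp (t h x : ℝ) : ℝ := min 1 (max 0 ((x - t) / h))

theorem continuous_ramp (t h : ℝ) : Continuous (ramp t h) := by
  unfold ramp; fun_prop

theorem ramp_mem (t h x : ℝ) : 0 ≤ ramp t h x ∧ ramp t h x ≤ 1 :=
  ⟨le_min zero_le_one (le_max_left _ _), min_le_left _ _⟩

theorem ramp_le_above {t h : ℝ} (hh : 0 < h) (x : ℝ) : ramp t h x ≤ above t x := by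
  unfold above
  split_ifs with hx
  · exact (ramp_mem t h x).2
  · refine (min_le_right _ _).trans (max_le le_rfl ?_)
    exact div_nonpos_of_nonpos_of_nonneg (by linarith [not_lt.1 hx]) hh.le

theorem above_le_ramp {t h : ℝ} (hh : 0 < h) (x : ℝ) : above t x ≤ ramp (t - h) h x := by
  unfold above
  split_ifs with hx
  · refine le_min le_rfl (le_max_of_le_right ?_)
    rw [le_div_iff₀ hh]; linarith
  · exact (ramp_mem _ _ _).1

theorem tendsto_count {μ : Measure ℝ} [IsProbabilityMeasure μ] {b : ℝ} {lam : ∀ N, Fin N → ℝ}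
    (hlam : Admissible μ b lam) {t : ℝ} (ht : μ {t} = 0) :
    Tendsto (fun N : ℕ => (count (lam N) t : ℝ) / N) atTop (𝓝 (μ.real (Set.Ioi t))) := by
  set F : ℕ → ℝ := fun N => (count (lam N) t : ℝ) / N
  have hF : ∀ N : ℕ, F N = (∑ i, above t (lam N i)) / N := fun N => by
    simp [F, above, count]
  set h : ℕ → ℝ := fun n => 1 / ((n : ℝ) + 1)
  have hh : ∀ n, 0 < h n := fun n => by positivity
  have hh0 : Tendsto h atTop (𝓝 0) := tendsto_one_div_add_atTop_nhds_zero_nat
  have hne : ∀ᵐ x ∂μ, x ≠ t := by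
    rw [ae_iff]; simpa using ht
  have key : ∀ s : ℕ → ℝ, (∀ x, x ≠ t → Tendsto (fun n => ramp (s n) (h n) x) atTop (𝓝 (above t x))) →
      Tendsto (fun n => ∫ x, ramp (s n) (h n) x ∂μ) atTop (𝓝 (μ.real (Set.Ioi t))) := fun s hs => by
    have e : ∫ x, above t x ∂μ = μ.real (Set.Ioi t) := by
      have : above t = (Set.Ioi t).indicator (1 : ℝ → ℝ) := by
        funext x; simp [above, Set.indicator, Set.mem_Ioi]
      rw [this, integral_indicator_one measurableSet_Ioi]
    rw [← e]
    refine tendsto_integral_of_dominated_convergence (fun _ => 1)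
      (fun n => (continuous_ramp _ _).aestronglyMeasurable) (integrable_const 1)
      (fun n => Eventually.of_forall fun x => ?_) (hne.mono hs)
    rw [Real.norm_eq_abs, abs_of_nonneg (ramp_mem _ _ _).1]
    exact (ramp_mem _ _ _).2
  have hlo := key (fun _ => t) fun x hx => by
    unfold above
    split_ifs with hxt
    · have hev : ∀ᶠ n in atTop, h n ≤ x - t := hh0.eventually (eventually_le_nhds (by linarith))
      refine tendsto_const_nhds.congr' (hev.mono fun n hn => ?_)
      refine ((min_eq_left (le_max_of_le_right ?_))).symm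
      rw [le_div_iff₀ (hh n)]; linarith
    · refine tendsto_const_nhds.congr' (Eventually.of_forall fun n => ?_)
      have : (x - t) / h n ≤ 0 := div_nonpos_of_nonpos_of_nonneg (by linarith [not_lt.1 hxt]) (hh n).le
      simp [ramp, max_eq_left this]
  have hhi := key (fun n => t - h n) fun x hx => by
    unfold above
    split_ifs with hxt
    · refine tendsto_const_nhds.congr' (Eventually.of_forall fun n => ?_)
      refine ((min_eq_left (le_max_of_le_right ?_))).symm
      rw [le_div_iff₀ (hh n)]; linarith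
    · have hlt : x < t := lt_of_le_of_ne (not_lt.1 hxt) hx
      have hev : ∀ᶠ n in atTop, h n ≤ t - x := hh0.eventually (eventually_le_nhds (by linarith))
      refine tendsto_const_nhds.congr' (hev.mono fun n hn => ?_)
      have : (x - (t - h n)) / h n ≤ 0 := div_nonpos_of_nonpos_of_nonneg (by linarith) (hh n).le
      simp [ramp, max_eq_left this]
  have hbdd : ∀ s d : ℝ, ∃ C, ∀ x, |ramp s d x| ≤ C := fun s d => ⟨1, fun x => by
    rw [abs_of_nonneg (ramp_mem s d x).1]; exact (ramp_mem s d x).2⟩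
  refine tendsto_order.2 ⟨fun a ha => ?_, fun a ha => ?_⟩
  · obtain ⟨n, hn⟩ := (hlo.eventually (eventually_gt_nhds ha)).exists
    refine ((hlam.1 _ (continuous_ramp t (h n)) (hbdd _ _)).eventually (eventually_gt_nhds hn)).mono
      fun N hN => lt_of_lt_of_le hN ?_
    rw [hF]
    exact div_le_div_of_nonneg_right (Finset.sum_le_sum fun i _ => ramp_le_above (hh n) _) (Nat.cast_nonneg N)
  · obtain ⟨n, hn⟩ := (hhi.eventually (eventually_lt_nhds ha)).exists
    refine ((hlam.1 _ (continuous_ramp (t - h n) (h n)) (hbdd _ _)).eventually (eventually_lt_nhds hn)).mono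
      fun N hN => lt_of_le_of_lt ?_ hN
    rw [hF]
    exact div_le_div_of_nonneg_right (Finset.sum_le_sum fun i _ => above_le_ramp (hh n) _) (Nat.cast_nonneg N)

/-- A grid with no atom of `μ` on it. -/
theorem exists_grid (μ : Measure ℝ) [IsProbabilityMeasure μ] (b : ℝ) {δ : ℝ} (hδ : 0 < δ) :
    ∃ u, 0 < u ∧ u < δ ∧ ∀ j : ℕ, μ {b - u - j * δ} = 0 := by
  have hA : {x : ℝ | 0 < μ {x}}.Countable := by
    simpa using Measure.countable_meas_pos_of_disjoint_iUnion (μ := μ) (As := fun x : ℝ => {x})
      (fun x => measurableSet_singleton x) fun x y hxy => Set.disjoint_singleton.2 hxy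
  have hB : (⋃ j : ℕ, (fun x => b - x - j * δ) '' {x : ℝ | 0 < μ {x}}).Countable :=
    Set.countable_iUnion fun j => hA.image _
  obtain ⟨u, hu1, hu2⟩ := (hB.dense_compl ℝ).exists_between hδ
  refine ⟨u, hu2.1, hu2.2, fun j => ?_⟩
  by_contra hne
  exact hu1 (Set.mem_iUnion.2 ⟨j, b - u - j * δ, pos_iff_ne_zero.2 hne, by ring⟩)

/-- The canonical counts of a grid. -/
noncomputable def level (μ : Measure ℝ) (M : ℕ) (t₀ δ : ℝ) (N : ℕ) (l : Fin M) : ℕ :=
  ⌈(N : ℝ) * μ.real (Set.Ioi (t₀ + (l.val + 1) * δ))⌉₊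

theorem level_le (μ : Measure ℝ) [IsProbabilityMeasure μ] (M : ℕ) (t₀ δ : ℝ) (N : ℕ) (l : Fin M) :
    level μ M t₀ δ N l ≤ N :=
  Nat.ceil_le.2 (mul_le_of_le_one_right (Nat.cast_nonneg N) measureReal_le_one)

/-- The centre attached to a grid. -/
noncomputable def gridCentre (β : ℝ) (μ : Measure ℝ) [IsProbabilityMeasure μ] (M : ℕ) (t₀ δ η : ℝ)
    (N : ℕ) : ℝ :=
  centre β t₀ δ η (level_le μ M t₀ δ N)

/-- Every admissible sequence is close to the centre of a fine grid. -/
theorem eventually_close {μ : Measure ℝ} [IsProbabilityMeasure μ] {b : ℝ} (hb : IsTopEdge μ b)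
    (hβ : 0 ≤ β) {M : ℕ} {t₀ δ η u a : ℝ} (hδ : 0 < δ) (hη : 0 < η)
    (hu : 0 < u) (huδ : u < δ) (ht₀ : t₀ = b - u - M * δ) (hgrid : ∀ j : ℕ, μ {b - u - j * δ} = 0)
    {lam : ∀ N, Fin N → ℝ} (hlam : Admissible μ b lam)
    (ha : ∀ᶠ N in atTop, ∀ i, a ≤ lam N i) (hta : t₀ < a)
    {m : ∀ N, Measure (Fin N → Fin N → ℝ)} (hm : ∀ N, IsHaarOrth (m N)) {e : ℝ}
    (he : 2 * β * δ + β * δ * M / (2 * μ.real (Set.Ioi (b - u))) * √η < e) :
    ∀ᶠ N in atTop, ∫ U, |press β (lam N) U - gridCentre β μ M t₀ δ η N| ∂m N < e := by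
  set p := μ.real (Set.Ioi (b - u)) with hp
  have hp0 : 0 < p := ENNReal.toReal_pos (hb.2 u hu).ne' (measure_ne_top _ _)
  set t : Fin M → ℝ := fun l => t₀ + (l.val + 1) * δ with ht
  set n : ∀ N, Fin M → ℕ := fun N l => count (lam N) (t l)
  set n₀ : ℕ → ℕ := fun N => count (lam N) (b - u)
  set k₀ : ℕ → ℕ := fun N => ⌈(N : ℝ) * p⌉₊
  have htlt : ∀ l : Fin M, t l ≤ b - u := fun l => by
    have : (l.val : ℝ) + 1 ≤ M := by exact_mod_cast l.2
    simp only [t, ht₀]; nlinarith
  have hatom : ∀ l : Fin M, μ {t l} = 0 := fun l => by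
    have h := hgrid (M - (l.val + 1))
    rw [Nat.cast_sub (by omega : l.val + 1 ≤ M)] at h
    push_cast at h
    convert h using 3
    simp only [t, ht₀]; ring
  have hn₀ : Tendsto (fun N : ℕ => (n₀ N : ℝ) / N) atTop (𝓝 p) :=
    tendsto_count hlam (by simpa using hgrid 0)
  have hdiff : Tendsto (fun N : ℕ => ∑ l, |(n N l : ℝ) / N - level μ M t₀ δ N l / N|) atTop (𝓝 0) := by
    have h : ∀ l, Tendsto (fun N : ℕ => |(n N l : ℝ) / N - level μ M t₀ δ N l / N|) atTop (𝓝 0) := fun l => by
      have h1 : Tendsto (fun N : ℕ => (n N l : ℝ) / N) atTop (𝓝 (μ.real (Set.Ioi (t l)))) :=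
        tendsto_count hlam (hatom l)
      have h2 : Tendsto (fun N : ℕ => (level μ M t₀ δ N l : ℝ) / N) atTop (𝓝 (μ.real (Set.Ioi (t l)))) := by
        refine ((tendsto_nat_ceil_mul_div_atTop (a := μ.real (Set.Ioi (t l))) measureReal_nonneg).comp
          tendsto_natCast_atTop_atTop).congr fun N => ?_
        simp only [Function.comp_apply, level, t]
        rw [mul_comm]
      simpa using (h1.sub h2).abs
    simpa using tendsto_finsetSum Finset.univ fun l _ => h l
  set err : ℕ → ℝ := fun N => 2 * β * δ + β * δ / 2 * ((2 / p + 1 / p) *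
      ∑ l, |(n N l : ℝ) / N - level μ M t₀ δ N l / N|) +
    (β * δ * M / (2 * p) * √(η + 1 / N) + 8 * ((β * δ * M + 1) / √(N * η)))
  have herr : Tendsto err atTop
      (𝓝 (2 * β * δ + β * δ / 2 * ((2 / p + 1 / p) * 0) + (β * δ * M / (2 * p) * √(η + 0) + 8 * 0))) := by
    refine ((hdiff.const_mul _).const_mul _ |>.const_add _).add ?_
    refine Tendsto.add ?_ (Tendsto.const_mul _ ?_)
    · exact ((continuous_sqrt.tendsto _).comp ((tendsto_const_div_atTop_nhds_zero_nat 1).const_add η)).const_mul _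
    · refine tendsto_const_nhds.div_atTop (tendsto_sqrt_atTop.comp ?_)
      exact tendsto_natCast_atTop_atTop.atTop_mul_const hη
  simp only [mul_zero, add_zero] at herr
  filter_upwards [herr.eventually (eventually_lt_nhds he), ha, hlam.2.1 (δ - u) (by linarith),
    hn₀.eventually (eventually_gt_nhds (half_lt_self hp0)), eventually_ge_atTop 1]
    with N hN hNa hNb hNn hN1
  refine lt_of_le_of_lt ?_ hN
  have hN0 : 0 < N := hN1
  have hNr : (0 : ℝ) < N := by exact_mod_cast hN0
  have := (hm N).1
  set c := gridCentre β μ M t₀ δ η N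
  set q : Fin N → ℝ := fun i => quant M t₀ δ (lam N i)
  obtain ⟨τ, hτ⟩ := exists_sorted (lam N)
  set D := stepVec N t₀ δ (n N)
  set D₀ := stepVec N t₀ δ (level μ M t₀ δ N)
  have hqD : q ∘ τ = D := quant_sorted hτ M t₀ δ
  have hI : ∀ v : Fin N → ℝ, Integrable (fun U => press β v U) (m N) :=
    integrable_press (hm N) hβ hN0.ne'
  have hA : ∫ U, |press β (lam N) U - press β q U| ∂m N ≤ 2 * β * δ := by
    refine (integral_abs_press_sub_le (hm N) hβ hN0.ne' _ _).trans ?_
    refine (mul_le_mul_of_nonneg_left (Finset.sum_le_sum fun i _ => mul_le_mul_of_nonneg_right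
      (?_ : |lam N i - q i| ≤ 2 * δ) (add_nonneg (mass_nonneg _ i) (mass_nonneg _ i))) (by positivity)).trans
      (le_of_eq ?_)
    · rw [abs_sub_comm]
      refine abs_quant_sub_le hδ M (lt_of_lt_of_le hta (hNa i)) ?_
      have := hNb i
      rw [ht₀]; linarith
    · rw [← Finset.mul_sum, Finset.sum_add_distrib, sum_mass (hm N), sum_mass (hm N)]
      field_simp
      ring
  have hn0pos : 0 < n₀ N := by
    rcases Nat.eq_zero_or_pos (n₀ N) with h | h
    · rw [h, Nat.cast_zero, zero_div] at hNn; linarith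
    · exact h
  have hk0pos : 0 < k₀ N := Nat.ceil_pos.2 (by positivity)
  have hn0le : ∀ l, n₀ N ≤ n N l := fun l => Finset.card_le_card fun i hi => by
    simp only [Finset.mem_filter, Finset.mem_univ, true_and] at hi ⊢
    linarith [htlt l]
  have hk0le : ∀ l, k₀ N ≤ level μ M t₀ δ N l := fun l => Nat.ceil_mono (by
    refine mul_le_mul_of_nonneg_left ?_ (Nat.cast_nonneg N)
    exact measureReal_mono (Set.Ioi_subset_Ioi (htlt l)))
  have hn0N : n₀ N ≤ N := (Finset.card_le_univ _).trans (Fintype.card_fin N).le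
  have hk0N : k₀ N ≤ N := Nat.ceil_le.2 (mul_le_of_le_one_right (Nat.cast_nonneg N) measureReal_le_one)
  have hn0r : p / 2 * N < n₀ N := (lt_div_iff₀ hNr).1 hNn
  have hk0r : (N : ℝ) * p ≤ k₀ N := Nat.le_ceil _
  have hmass : ∀ (r : Fin M → ℕ) (r₀ : ℕ), r₀ ≤ N → (∀ l, r₀ ≤ r l) → ∀ i,
      (r₀ : ℝ) * mass β (m N) (stepVec N t₀ δ r) i ≤ N := by
    intro r r₀ hr hle i
    have h := mass_le_top (β := β) (hm N) hβ (stepVec N t₀ δ r)
      (Finset.univ.filter fun j : Fin N => j.val < r₀) (fun x j hj => by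
        simp only [Finset.mem_filter, Finset.mem_univ, true_and] at hj
        refine add_le_add le_rfl (mul_le_mul_of_nonneg_left (Finset.sum_le_sum fun l _ => ?_) hδ.le)
        rw [if_pos (lt_of_lt_of_le hj (hle l))]
        split_ifs <;> norm_num) i
    rwa [Fin.card_filter_val_lt, min_eq_right hr] at h
  have hmD : ∀ i, mass β (m N) D i ≤ 2 / p := fun i => by
    have h := hmass (n N) (n₀ N) hn0N hn0le i
    rw [le_div_iff₀ hp0]
    nlinarith [mass_nonneg (β := β) (m := m N) D i]
  have hmD₀ : ∀ i, mass β (m N) D₀ i ≤ 1 / p := fun i => by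
    have h := hmass (level μ M t₀ δ N) (k₀ N) hk0N hk0le i
    rw [le_div_iff₀ hp0]
    nlinarith [mass_nonneg (β := β) (m := m N) D₀ i]
  have hB : ∫ U, |press β D U - press β D₀ U| ∂m N
      ≤ β * δ / 2 * ((2 / p + 1 / p) * ∑ l, |(n N l : ℝ) / N - level μ M t₀ δ N l / N|) := by
    refine (integral_abs_press_sub_le (hm N) hβ hN0.ne' _ _).trans ?_
    have h1 : ∑ i, |D i - D₀ i| ≤ δ * ∑ l, |(n N l : ℝ) - level μ M t₀ δ N l| := by
      have h2 : ∀ i : Fin N, |D i - D₀ i| ≤ δ * ∑ l, |(if i.val < n N l then (1 : ℝ) else 0)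
          - if i.val < level μ M t₀ δ N l then 1 else 0| := fun i => by
        simp only [D, D₀, stepVec, add_sub_add_left_eq_sub, ← mul_sub, ← Finset.sum_sub_distrib]
        rw [abs_mul, abs_of_pos hδ]
        exact mul_le_mul_of_nonneg_left (Finset.abs_sum_le_sum_abs _ _) hδ.le
      refine (Finset.sum_le_sum fun i _ => h2 i).trans ?_
      rw [← Finset.mul_sum, Finset.sum_comm]
      refine mul_le_mul_of_nonneg_left (Finset.sum_le_sum fun l _ => ?_) hδ.le
      have hr : ∀ r : ℕ, r ≤ N → ∑ i : Fin N, (if i.val < r then (1 : ℝ) else 0) = r := fun r hr => by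
        rw [Finset.sum_boole, Fin.card_filter_val_lt, min_eq_right hr]
      have hnN : n N l ≤ N := (Finset.card_le_univ _).trans (Fintype.card_fin N).le
      rcases le_total (n N l) (level μ M t₀ δ N l) with h | h
      · have he : ∀ i : Fin N, |(if i.val < n N l then (1 : ℝ) else 0)
            - if i.val < level μ M t₀ δ N l then 1 else 0|
            = (if i.val < level μ M t₀ δ N l then (1 : ℝ) else 0) - if i.val < n N l then 1 else 0 :=
          fun i => by split_ifs with h1 h2 h3 <;> first | omega | norm_num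
        simp only [he, Finset.sum_sub_distrib, hr _ (level_le μ M t₀ δ N l), hr _ hnN]
        rw [abs_sub_comm]
        exact le_abs_self _
      · have he : ∀ i : Fin N, |(if i.val < n N l then (1 : ℝ) else 0)
            - if i.val < level μ M t₀ δ N l then 1 else 0|
            = (if i.val < n N l then (1 : ℝ) else 0) - if i.val < level μ M t₀ δ N l then 1 else 0 :=
          fun i => by split_ifs with h1 h2 h3 <;> first | omega | norm_num
        simp only [he, Finset.sum_sub_distrib, hr _ (level_le μ M t₀ δ N l), hr _ hnN]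
        exact le_abs_self _
    refine (mul_le_mul_of_nonneg_left ((Finset.sum_le_sum fun i _ => mul_le_mul_of_nonneg_left
      (add_le_add (hmD i) (hmD₀ i)) (abs_nonneg (D i - D₀ i))).trans_eq (Finset.sum_mul ..).symm)
      (by positivity)).trans ?_
    refine (mul_le_mul_of_nonneg_left (mul_le_mul_of_nonneg_right h1 (by positivity))
      (by positivity)).trans (le_of_eq ?_)
    have e : ∀ l, |(n N l : ℝ) / N - level μ M t₀ δ N l / N| = |(n N l : ℝ) - level μ M t₀ δ N l| / N :=
      fun l => by rw [← sub_div, abs_div, Nat.abs_cast]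
    simp only [e, ← Finset.sum_div]
    field_simp
  have hC : ∫ U, |press β D₀ U - c| ∂m N
      ≤ β * δ * M / (2 * p) * √(η + 1 / N) + 8 * ((β * δ * M + 1) / √(N * η)) := by
    refine (integral_step_le (hm N) hβ hδ.le hη hN0 (level_le μ M t₀ δ N) hk0pos hk0N hk0le).trans
      (add_le_add ?_ le_rfl)
    calc β * δ * M / (2 * k₀ N) * (N * √(η + 1 / N))
        ≤ β * δ * M / (2 * (N * p)) * (N * √(η + 1 / N)) := by
          refine mul_le_mul_of_nonneg_right (div_le_div_of_nonneg_left (by positivity) (by positivity) ?_)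
            (by positivity)
          linarith
      _ = _ := by field_simp
  have hperm : ∫ U, |press β q U - c| ∂m N = ∫ U, |press β D U - c| ∂m N := by
    rw [← hqD]
    exact (integral_press_perm (hm N) τ q (φ := fun x => |x - c|) (by fun_prop)).symm
  have i1 : Integrable (fun U => |press β (lam N) U - press β q U|) (m N) := ((hI _).sub (hI _)).abs
  have i2 : Integrable (fun U => |press β q U - c|) (m N) := ((hI _).sub (integrable_const c)).abs
  have i3 : Integrable (fun U => |press β D U - press β D₀ U|) (m N) := ((hI _).sub (hI _)).abs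
  have i4 : Integrable (fun U => |press β D₀ U - c|) (m N) := ((hI _).sub (integrable_const c)).abs
  have s1 := integral_mono (((hI (lam N)).sub (integrable_const c)).abs) (i1.add i2)
    fun U => abs_sub_le (press β (lam N) U) (press β q U) c
  have s2 := integral_mono (((hI D).sub (integrable_const c)).abs) (i3.add i4)
    fun U => abs_sub_le (press β D U) (press β D₀ U) c
  simp only [Pi.add_apply, Pi.sub_apply] at s1 s2
  rw [integral_add i1 i2] at s1
  rw [integral_add i3 i4] at s2
  simp only [err]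
  linarith [s1, s2, hperm]

/-- For every `β ≥ 0` and every limiting law there is one deterministic sequence to which the
pressure is asymptotic in mean, for every admissible spectrum. -/
theorem exists_centre {μ : Measure ℝ} [IsProbabilityMeasure μ] {b : ℝ} (hb : IsTopEdge μ b)
    (hβ : 0 ≤ β) :
    ∃ c : ℕ → ℝ, ∀ lam : ∀ N, Fin N → ℝ, Admissible μ b lam →
      ∀ m : ∀ N, Measure (Fin N → Fin N → ℝ), (∀ N, IsHaarOrth (m N)) →
        Tendsto (fun N => ∫⁻ U, ENNReal.ofReal |press β (lam N) U - c N| ∂m N) atTop (𝓝 0) := by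
  by_cases hex : ∃ lam, Admissible μ b lam
  swap
  · exact ⟨0, fun lam hl => absurd ⟨lam, hl⟩ hex⟩
  obtain ⟨lam', hl'⟩ := hex
  choose m' hm' using exists_isHaarOrth
  refine ⟨fun N => ∫ U, press β (lam' N) U ∂m' N, fun lam hl m hm => ?_⟩
  set c : ℕ → ℝ := fun N => ∫ U, press β (lam' N) U ∂m' N
  have key : Tendsto (fun N => ∫ U, |press β (lam N) U - c N| ∂m N) atTop (𝓝 0) := by
    refine Metric.tendsto_nhds.2 fun e he => ?_
    obtain ⟨a₁, ha₁⟩ := hl.2.2
    obtain ⟨a₂, ha₂⟩ := hl'.2.2
    set δ := e / (10 * (β + 1)) with hδe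
    have hδ : 0 < δ := by positivity
    obtain ⟨u, hu, huδ, hgrid⟩ := exists_grid μ b hδ
    obtain ⟨M, hM⟩ := exists_nat_gt ((b - min a₁ a₂) / δ)
    rw [div_lt_iff₀ hδ] at hM
    have hp0 : 0 < μ.real (Set.Ioi (b - u)) :=
      ENNReal.toReal_pos (hb.2 u hu).ne' (measure_ne_top _ _)
    set w := β * δ * M / (2 * μ.real (Set.Ioi (b - u)))
    have hw : 0 ≤ w := by positivity
    set η := (e / (10 * (w + 1))) ^ 2
    have hη : 0 < η := by positivity
    have he' : 2 * β * δ + w * √η < e / 2 := by
      rw [sqrt_sq (by positivity)]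
      have h1 : β * δ ≤ e / 10 := by
        rw [hδe, mul_div_assoc', div_le_div_iff₀ (by positivity) (by norm_num)]
        nlinarith
      have h2 : w * (e / (10 * (w + 1))) ≤ e / 10 := by
        rw [mul_div_assoc', div_le_div_iff₀ (by positivity) (by norm_num)]
        nlinarith
      linarith
    have H : ∀ (l : ∀ N, Fin N → ℝ), Admissible μ b l → ∀ a, (∀ᶠ N in atTop, ∀ i, a ≤ l N i) →
        min a₁ a₂ ≤ a → ∀ mm : ∀ N, Measure (Fin N → Fin N → ℝ), (∀ N, IsHaarOrth (mm N)) →
        ∀ᶠ N in atTop, ∫ U, |press β (l N) U - gridCentre β μ M (b - u - M * δ) δ η N| ∂mm N < e / 2 :=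
      fun l hadm a ha hmin mm hmm =>
        eventually_close hb hβ hδ hη hu huδ rfl hgrid hadm ha (by linarith) hmm he'
    filter_upwards [H lam hl a₁ ha₁ (min_le_left _ _) m hm, H lam' hl' a₂ ha₂ (min_le_right _ _) m' hm',
      eventually_ge_atTop 1] with N h1 h2 hN
    have := (hm N).1
    have := (hm' N).1
    have hN0 : N ≠ 0 := Nat.one_le_iff_ne_zero.1 hN
    set g := gridCentre β μ M (b - u - M * δ) δ η N
    have hI := integrable_press (hm N) hβ hN0 (lam N)
    have hI' := integrable_press (hm' N) hβ hN0 (lam' N)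
    have h3 : |g - c N| ≤ ∫ U, |press β (lam' N) U - g| ∂m' N := by
      rw [abs_sub_comm]
      have : c N - g = ∫ U, (press β (lam' N) U - g) ∂m' N := by
        rw [integral_sub hI' (integrable_const g)]
        simp [c]
      rw [this]
      exact abs_integral_le_integral_abs
    have h4 : ∫ U, |press β (lam N) U - c N| ∂m N ≤ ∫ U, |press β (lam N) U - g| ∂m N + |g - c N| := by
      refine (integral_mono ((hI.sub (integrable_const _)).abs)
        (((hI.sub (integrable_const g)).abs).add (integrable_const |g - c N|))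
        fun U => abs_sub_le (press β (lam N) U) g (c N)).trans (le_of_eq ?_)
      simp only [Pi.sub_apply]
      have hIg : Integrable (fun U => |press β (lam N) U - g|) (m N) := (hI.sub (integrable_const g)).abs
      rw [integral_add' hIg (integrable_const _)]
      simp
    rw [dist_zero_right, Real.norm_eq_abs, abs_of_nonneg (integral_nonneg fun U => abs_nonneg _)]
    linarith
  have key' := ENNReal.tendsto_ofReal key
  rw [ENNReal.ofReal_zero] at key'
  refine key'.congr' ?_
  filter_upwards [eventually_ge_atTop 1] with N hN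
  have := (hm N).1
  exact ofReal_integral_eq_lintegral_ofReal
    ((integrable_press (hm N) hβ (Nat.one_le_iff_ne_zero.1 hN) (lam N)).sub (integrable_const _)).abs
    (Eventually.of_forall fun U => abs_nonneg _)

end Vale.Agent.P166
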