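import Vale.Agent.P166.Resolvent
import Vale.Agent.P166.Gauss

/-!
# P166: the rank lost by regularising a Gaussian projection
-/

open MeasureTheory Matrix

namespace Vale.Agent.P166

open P150 (stdPi)

variable {N k : ℕ}

/-- The first `k` columns of a Gaussian array, divided by `√N`. -/
noncomputable def cols (hk : k ≤ N) (g : Fin N × Fin N → ℝ) : Matrix (Fin N) (Fin k) ℝ :=
  Matrix.of fun i a => g (i, Fin.castLE hk a) / √(N : ℝ)

theorem continuous_cols (hk : k ≤ N) : Continuous (cols hk) :=
  continuous_pi fun _ => continuous_pi fun _ => (continuous_apply _).div_const _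

/-- The slope of the entry `(G R) i a` in the entry `G i a`. -/
noncomputable def slopeEntry (G G' : Matrix (Fin N) (Fin k) ℝ) (η : ℝ) (i : Fin N) (a : Fin k) : ℝ :=
  (reg G' η)⁻¹ a a - (G * (reg G' η)⁻¹) i a * (G' * (reg G η)⁻¹) i a
    - (G * (reg G' η)⁻¹ * Gᵀ) i i * (reg G η)⁻¹ a a

theorem entry_sub {η : ℝ} (hη : 0 < η) (G : Matrix (Fin N) (Fin k) ℝ) (i : Fin N) (a : Fin k)
    (t : ℝ) :
    ((G + t • Matrix.single i a (1 : ℝ)) * (reg (G + t • Matrix.single i a (1 : ℝ)) η)⁻¹ :
        Matrix (Fin N) (Fin k) ℝ) i a - (G * (reg G η)⁻¹) i a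
      = t * slopeEntry G (G + t • Matrix.single i a (1 : ℝ)) η i a := by
  set E : Matrix (Fin N) (Fin k) ℝ := Matrix.single i a 1 with hE
  set G' := G + t • E with hG'
  have h1 : reg G η - reg G' η = -(t • (Eᵀ * G' + Gᵀ * E)) := by
    simp only [reg, hG', transpose_add, transpose_smul, Matrix.add_mul, Matrix.mul_add, Matrix.smul_mul,
      Matrix.mul_smul, smul_add]
    abel
  set R := (reg G η)⁻¹ with hR
  set R' := (reg G' η)⁻¹ with hR'
  have h2 : R' - R = R' * (reg G η - reg G' η) * R := by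
    rw [Matrix.mul_sub, nonsing_inv_mul _ (isUnit_det_reg G' hη), Matrix.sub_mul, Matrix.mul_assoc,
      mul_nonsing_inv _ (isUnit_det_reg G hη), Matrix.mul_one, Matrix.one_mul]
  have h3 : G' * R' - G * R = t • (E * R' - G * R' * Eᵀ * (G' * R) - G * R' * Gᵀ * (E * R)) := by
    have : G' * R' - G * R = t • (E * R') + G * (R' - R) := by
      rw [hG', Matrix.add_mul, Matrix.smul_mul, Matrix.mul_sub]
      abel
    rw [this, h2, h1]
    simp only [Matrix.mul_neg, Matrix.neg_mul, Matrix.mul_smul, Matrix.smul_mul, Matrix.mul_add,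
      Matrix.add_mul, Matrix.mul_assoc, smul_sub]
    module
  have h4 := congrFun (congrFun h3 i) a
  rw [Matrix.sub_apply] at h4
  rw [h4]
  simp only [Matrix.smul_apply, Matrix.sub_apply, smul_eq_mul, slopeEntry]
  congr 1
  have e1 : (E * R') i a = R' a a := by rw [hE, Matrix.single_mul_apply_same, one_mul]
  have e2 : (G * R' * Eᵀ * (G' * R)) i a = (G * R') i a * (G' * R) i a := by
    rw [hE, Matrix.transpose_single, Matrix.mul_assoc _ (Matrix.single a i 1), Matrix.mul_apply]
    rw [Finset.sum_eq_single a (fun b _ hb => by rw [Matrix.single_mul_apply_of_ne _ _ _ _ _ hb, mul_zero])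
      (fun h => absurd (Finset.mem_univ a) h), Matrix.single_mul_apply_same, one_mul]
  have e3 : (G * R' * Gᵀ * (E * R)) i a = (G * R' * Gᵀ) i i * R a a := by
    rw [hE, Matrix.mul_apply]
    rw [Finset.sum_eq_single i (fun b _ hb => by rw [Matrix.single_mul_apply_of_ne _ _ _ _ _ hb, mul_zero])
      (fun h => absurd (Finset.mem_univ i) h), Matrix.single_mul_apply_same, one_mul]
  rw [e1, e2, e3]

theorem cols_update (hk : k ≤ N) (g : Fin N × Fin N → ℝ) (i : Fin N) (a : Fin k) (y y' : ℝ) :
    cols hk (Function.update g (i, Fin.castLE hk a) y')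
      = cols hk (Function.update g (i, Fin.castLE hk a) y)
        + ((y' - y) / √(N : ℝ)) • Matrix.single i a 1 := by
  ext j b
  simp only [cols, Matrix.of_apply, Matrix.add_apply, Matrix.smul_apply, Matrix.single_apply, smul_eq_mul]
  by_cases h : i = j ∧ a = b
  · obtain ⟨rfl, rfl⟩ := h
    simp
    ring
  · have hne : (j, Fin.castLE hk b) ≠ (i, Fin.castLE hk a) := fun e => h
      ⟨(Prod.ext_iff.1 e).1.symm, (Fin.castLE_injective hk (Prod.ext_iff.1 e).2).symm⟩
    rw [Function.update_of_ne hne, Function.update_of_ne hne, if_neg h]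
    ring

theorem hasDerivAt_entry {η : ℝ} (hη : 0 < η) (hk : k ≤ N) (g : Fin N × Fin N → ℝ) (i : Fin N)
    (a : Fin k) (y : ℝ) :
    HasDerivAt (fun y => (cols hk (Function.update g (i, Fin.castLE hk a) y)
        * (reg (cols hk (Function.update g (i, Fin.castLE hk a) y)) η)⁻¹) i a)
      (slopeEntry (cols hk (Function.update g (i, Fin.castLE hk a) y))
        (cols hk (Function.update g (i, Fin.castLE hk a) y)) η i a / √(N : ℝ)) y := by
  set F : ℝ → Matrix (Fin N) (Fin k) ℝ := fun y' => cols hk (Function.update g (i, Fin.castLE hk a) y')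
  have hF : Continuous F :=
    (continuous_cols hk).comp (continuous_const.update (i, Fin.castLE hk a) continuous_id)
  rw [hasDerivAt_iff_tendsto_slope]
  have hS : Continuous fun y' => slopeEntry (F y) (F y') η i a / √(N : ℝ) := by
    have hi := continuous_inv_reg hF hη
    unfold slopeEntry
    refine Continuous.div_const ?_ _
    exact (((hi.matrix_elem a a).sub
      (((continuous_const.matrix_mul hi).matrix_elem i a).mul
        ((hF.matrix_mul continuous_const).matrix_elem i a))).sub
      ((((continuous_const.matrix_mul hi).matrix_mul continuous_const).matrix_elem i i).mul continuous_const))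
  refine ((hS.tendsto y).mono_left nhdsWithin_le_nhds).congr' ?_
  filter_upwards [self_mem_nhdsWithin] with y' hy'
  have h := entry_sub hη (F y) i a ((y' - y) / √(N : ℝ))
  rw [← cols_update hk g i a y y'] at h
  have hne : y' - y ≠ 0 := sub_ne_zero.2 hy'
  rw [slope_def_field, h]
  simp only [F]
  field_simp

/-- The trace of the resolvent. -/
noncomputable def lost (η : ℝ) (hk : k ≤ N) (g : Fin N × Fin N → ℝ) : ℝ :=
  η * ((reg (cols hk g) η)⁻¹).trace

theorem trace_inv_mem {η : ℝ} (hη : 0 < η) (G : Matrix (Fin N) (Fin k) ℝ) :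
    0 ≤ ((reg G η)⁻¹).trace ∧ ((reg G η)⁻¹).trace ≤ k * (1 / η) := by
  refine ⟨Finset.sum_nonneg fun a _ => (inv_diag_mem hη a).1, ?_⟩
  refine (Finset.sum_le_sum fun a _ => (inv_diag_mem hη a).2).trans (le_of_eq ?_)
  simp

theorem continuous_lost (η : ℝ) (hη : 0 < η) (hk : k ≤ N) : Continuous (lost η hk) :=
  continuous_const.mul (continuous_inv_reg (continuous_cols hk) hη).matrix_trace

theorem lost_mem {η : ℝ} (hη : 0 < η) (hk : k ≤ N) (g : Fin N × Fin N → ℝ) :
    0 ≤ lost η hk g ∧ lost η hk g ≤ k := by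
  obtain ⟨h1, h2⟩ := trace_inv_mem hη (cols hk g)
  refine ⟨mul_nonneg hη.le h1, (mul_le_mul_of_nonneg_left h2 hη.le).trans (le_of_eq ?_)⟩
  field_simp

theorem integrable_lost {η : ℝ} (hη : 0 < η) (hk : k ≤ N) :
    Integrable (lost η hk) (stdPi (Fin N × Fin N)) :=
  Integrable.of_bound (continuous_lost η hη hk).aestronglyMeasurable k
    (Filter.Eventually.of_forall fun g => by
      rw [Real.norm_eq_abs, abs_of_nonneg (lost_mem hη hk g).1]; exact (lost_mem hη hk g).2)

/-- The lost rank is at most `N √(η + 1/N)` on average. -/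
theorem integral_lost_le {η : ℝ} (hη : 0 < η) (hN : 0 < N) (hk : k ≤ N) :
    ∫ g, lost η hk g ∂stdPi (Fin N × Fin N) ≤ N * √(η + 1 / N) := by
  set P := stdPi (Fin N × Fin N)
  set G : (Fin N × Fin N → ℝ) → Matrix (Fin N) (Fin k) ℝ := cols hk
  set R : (Fin N × Fin N → ℝ) → Matrix (Fin k) (Fin k) ℝ := fun g => (reg (G g) η)⁻¹
  have hNr : (0 : ℝ) < N := by exact_mod_cast hN
  have hs0 : (0 : ℝ) < √(N : ℝ) := Real.sqrt_pos.2 hNr
  have hss : √(N : ℝ) * √(N : ℝ) = N := Real.mul_self_sqrt hNr.le
  have hcG : Continuous G := continuous_cols hk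
  have hcR : Continuous R := continuous_inv_reg hcG hη
  set φ : Fin N → Fin k → (Fin N × Fin N → ℝ) → ℝ := fun i a g => (G g * R g) i a
  set φ' : Fin N → Fin k → (Fin N × Fin N → ℝ) → ℝ := fun i a g => slopeEntry (G g) (G g) η i a / √(N : ℝ)
  set B := 1 + 1 / η
  have hB : 0 ≤ B := by positivity
  have hφc : ∀ i a, Continuous (φ i a) := fun i a => (hcG.matrix_mul hcR).matrix_elem i a
  have hφ'e : ∀ i a g, φ' i a g = (R g a a - φ i a g ^ 2 - tmat (G g) η i i * R g a a) / √(N : ℝ) :=
    fun i a g => by simp only [φ', φ, slopeEntry, R, tmat]; ring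
  have hφ'c : ∀ i a, Continuous (φ' i a) := fun i a => by
    rw [funext (hφ'e i a)]
    refine ((((hcR.matrix_elem a a)).sub ((hφc i a).pow 2)).sub (Continuous.mul ?_ (hcR.matrix_elem a a))).div_const _
    exact ((hcG.matrix_mul hcR).matrix_mul hcG.matrix_transpose).matrix_elem i i
  have hbφ' : ∀ i a g, |φ' i a g| ≤ (B + B ^ 2 + B) / √(N : ℝ) := fun i a g => by
    rw [hφ'e, abs_div, abs_of_pos hs0]
    refine div_le_div_of_nonneg_right ?_ hs0.le
    obtain ⟨h1, h2⟩ := inv_diag_mem (G := G g) hη a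
    obtain ⟨h3, h4⟩ := tmat_diag_mem (G := G g) hη i
    have h5 : |φ i a g| ≤ B := abs_gram_le hη i a
    have h6 : φ i a g ^ 2 ≤ B ^ 2 := sq_le_sq' (abs_le.1 h5).1 (abs_le.1 h5).2
    have h7 : tmat (G g) η i i * R g a a ≤ R g a a := mul_le_of_le_one_left h1 h4
    have h8 : 0 ≤ tmat (G g) η i i * R g a a := mul_nonneg h3 h1
    have h9 : R g a a ≤ B := h2.trans (by simp [B])
    rw [abs_le]
    constructor <;> nlinarith [sq_nonneg (φ i a g)]
  have hibp : ∀ i a, ∫ g, g (i, Fin.castLE hk a) * φ i a g ∂P = ∫ g, φ' i a g ∂P := fun i a =>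
    P150.gauss_ibp (i, Fin.castLE hk a) (hφc i a).measurable (hφ'c i a).measurable
      (fun g => abs_gram_le hη i a) (hbφ' i a) fun g x => hasDerivAt_entry hη hk g i a x
  have hI1 : ∀ i a, Integrable (fun g => g (i, Fin.castLE hk a) * φ i a g) P := fun i a =>
    (P150.integrable_coord _).mul_bdd (hφc i a).aestronglyMeasurable
      (Filter.Eventually.of_forall fun g => abs_gram_le hη i a)
  have hI2 : ∀ i a, Integrable (φ' i a) P := fun i a =>
    Integrable.of_bound (hφ'c i a).aestronglyMeasurable _ (Filter.Eventually.of_forall (hbφ' i a))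
  set T : (Fin N × Fin N → ℝ) → ℝ := fun g => (R g).trace
  have hTc : Continuous T := hcR.matrix_trace
  have hT : ∀ g, 0 ≤ T g ∧ T g ≤ k * (1 / η) := fun g => trace_inv_mem hη (G g)
  set S : (Fin N × Fin N → ℝ) → ℝ := fun g => ∑ i, ∑ a, φ i a g ^ 2
  have hSle : ∀ g, S g ≤ T g := fun g => by
    simp only [S]
    rw [Finset.sum_comm]
    exact Finset.sum_le_sum fun a _ => gram_col hη a
  have hlhs : ∀ g, ∑ i, ∑ a, g (i, Fin.castLE hk a) * φ i a g = √(N : ℝ) * (k - η * T g) := fun g => by
    have h := trace_tmat (G := G g) hη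
    rw [← h]
    have e : ∀ i a, g (i, Fin.castLE hk a) = √(N : ℝ) * G g i a := fun i a => by
      simp only [G, cols, Matrix.of_apply]; field_simp
    simp only [Matrix.trace, Matrix.diag, tmat, Matrix.mul_apply (M := G g * (reg (G g) η)⁻¹),
      Matrix.transpose_apply, Finset.mul_sum]
    exact Finset.sum_congr rfl fun i _ => Finset.sum_congr rfl fun a _ => by
      rw [e i a]; simp only [φ, R]; ring
  have hrhs : ∀ g, ∑ i, ∑ a, φ' i a g
      = (N * T g - S g - (k - η * T g) * T g) / √(N : ℝ) := fun g => by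
    simp only [hφ'e, ← Finset.sum_div, Finset.sum_sub_distrib]
    congr 1
    rw [← trace_tmat (G := G g) hη]
    simp only [Finset.sum_const, Finset.card_univ, Fintype.card_fin, nsmul_eq_mul, Matrix.trace,
      Matrix.diag, ← Finset.mul_sum, ← Finset.sum_mul, S, T]
  have hid : ∫ g, √(N : ℝ) * (k - η * T g) ∂P
      = ∫ g, (N * T g - S g - (k - η * T g) * T g) / √(N : ℝ) ∂P := by
    simp only [← hlhs, ← hrhs]
    rw [integral_finsetSum _ fun i _ => integrable_finsetSum _ fun a _ => hI1 i a,
      integral_finsetSum _ fun i _ => integrable_finsetSum _ fun a _ => hI2 i a]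
    refine Finset.sum_congr rfl fun i _ => ?_
    rw [integral_finsetSum _ fun a _ => hI1 i a, integral_finsetSum _ fun a _ => hI2 i a]
    exact Finset.sum_congr rfl fun a _ => hibp i a
  have hTI : Integrable T P := Integrable.of_bound hTc.aestronglyMeasurable (k * (1 / η))
    (Filter.Eventually.of_forall fun g => by rw [Real.norm_eq_abs, abs_of_nonneg (hT g).1]; exact (hT g).2)
  have hT2I : Integrable (fun g => T g ^ 2) P := Integrable.of_bound (hTc.pow 2).aestronglyMeasurable
    ((k * (1 / η)) ^ 2) (Filter.Eventually.of_forall fun g => by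
      rw [Real.norm_eq_abs, abs_of_nonneg (sq_nonneg _)]; exact pow_le_pow_left₀ (hT g).1 (hT g).2 2)
  have hSc : Continuous S := continuous_finsetSum _ fun i _ => continuous_finsetSum _ fun a _ => (hφc i a).pow 2
  have hSI : Integrable S P := Integrable.of_bound hSc.aestronglyMeasurable (k * (1 / η))
    (Filter.Eventually.of_forall fun g => by
      rw [Real.norm_eq_abs, abs_of_nonneg (by positivity)]; exact (hSle g).trans (hT g).2)
  have hk' : (k : ℝ) ≤ N := by exact_mod_cast hk
  rw [integral_const_mul, integral_div, eq_div_iff hs0.ne', mul_assoc,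
    mul_comm (∫ g, ((k : ℝ) - η * T g) ∂P), ← mul_assoc, hss] at hid
  have e2 : ∀ g, (N : ℝ) * T g - S g - (k - η * T g) * T g = ((N : ℝ) - k) * T g - S g + η * T g ^ 2 :=
    fun g => by ring
  simp only [e2] at hid
  have hI3 : Integrable (fun g => ((N : ℝ) - k) * T g - S g) P := (hTI.const_mul _).sub hSI
  rw [integral_add hI3 (hT2I.const_mul η),
    integral_sub (hTI.const_mul _) hSI, integral_sub (integrable_const _) (hTI.const_mul η),
    integral_const_mul, integral_const_mul, integral_const_mul, integral_const] at hid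
  simp only [probReal_univ, one_smul] at hid
  have hS2 : ∫ g, S g ∂P ≤ N * (1 / η) := by
    refine ((integral_mono hSI (integrable_const _) fun g => (hSle g).trans (hT g).2).trans (le_of_eq ?_)).trans
      (mul_le_mul_of_nonneg_right hk' (by positivity))
    simp
  have hET : 0 ≤ ∫ g, T g ∂P := integral_nonneg fun g => (hT g).1
  have h2 : η * ∫ g, T g ^ 2 ∂P ≤ N * N + N * (1 / η) := by
    nlinarith [mul_nonneg (sub_nonneg.2 hk') hET, mul_nonneg hη.le hET, mul_le_mul_of_nonneg_left hk' hNr.le,
      mul_nonneg hNr.le (mul_nonneg hη.le hET)]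
  set e := √(η + 1 / N)
  have he : 0 < e := Real.sqrt_pos.2 (by positivity)
  have he2 : e ^ 2 = η + 1 / N := Real.sq_sqrt (by positivity)
  have hpt : ∀ g, lost η hk g ≤ η ^ 2 / (2 * N * e) * T g ^ 2 + N * e / 2 := fun g => by
    have h := sq_nonneg (η * T g - N * e)
    have : lost η hk g = η * T g := rfl
    rw [this]
    field_simp
    nlinarith
  refine (integral_mono (integrable_lost hη hk) ((hT2I.const_mul _).add (integrable_const _)) hpt).trans ?_
  simp only [Pi.add_apply]
  rw [integral_add (hT2I.const_mul _) (integrable_const _), integral_const_mul, integral_const]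
  simp only [probReal_univ, one_smul]
  have h3 : η ^ 2 / (2 * N * e) * ∫ g, T g ^ 2 ∂P ≤ η / (2 * N * e) * (N * N + N * (1 / η)) := by
    rw [show η ^ 2 / (2 * N * e) * ∫ g, T g ^ 2 ∂P = η / (2 * N * e) * (η * ∫ g, T g ^ 2 ∂P) by ring]
    exact mul_le_mul_of_nonneg_left h2 (by positivity)
  have h4 : η / (2 * N * e) * (N * N + N * (1 / η)) = (N : ℝ) * e / 2 := by
    field_simp
    have : e ^ 2 * N = η * N + 1 := by rw [he2]; field_simp
    linear_combination -this
  linarith

end Vale.Agent.P166
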