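import Vale.Agent.P166.Haar
import Vale.Agent.P166.Trace

/-!
# P166: step spectra realised by Gaussian arrays
-/

open MeasureTheory Matrix Real

namespace Vale.Agent.P166

open P150 (stdPi)

variable {N M : ℕ} {β t₀ δ η : ℝ} {k : Fin M → ℕ}

/-- The step spectrum with `k l` entries above level `l`. -/
noncomputable def stepVec (N : ℕ) (t₀ δ : ℝ) (k : Fin M → ℕ) (i : Fin N) : ℝ :=
  t₀ + δ * ∑ l, if i.val < k l then 1 else 0

/-- The spins as a real vector. -/
noncomputable def spins (s : Fin N → Bool) : Fin N → ℝ := fun j => spin (s j)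

theorem rotate_eq (U : Fin N → Fin N → ℝ) (s : Fin N → Bool) :
    rotate U s = Matrix.of U *ᵥ spins s := rfl

theorem spins_dot (s : Fin N → Bool) : spins s ⬝ᵥ spins s = N := by
  simp [dotProduct, spins, ← sq, spin_sq]

/-- The Gaussian model of the step spectrum, as an energy. -/
noncomputable def gEnergy (t₀ δ η : ℝ) (hk : ∀ l, k l ≤ N) (g : Fin N × Fin N → ℝ)
    (x : (Fin N → Bool) → Fin N → ℝ) (s : Fin N → Bool) : ℝ :=
  t₀ * N + δ * ∑ l, proj (cols (hk l) g) η (x s)

/-- Its pressure. -/
noncomputable def gPress (β t₀ δ η : ℝ) (hk : ∀ l, k l ≤ N) (g : Fin N × Fin N → ℝ) : ℝ :=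
  pressQ β (gEnergy t₀ δ η hk g spins)

/-- The centre: the mean pressure of the Gaussian model. -/
noncomputable def centre (β t₀ δ η : ℝ) (hk : ∀ l, k l ≤ N) : ℝ :=
  ∫ g, gPress β t₀ δ η hk g ∂stdPi (Fin N × Fin N)

/-- Extension of a vector on the first `k` indices by zero. -/
noncomputable def extend {k : ℕ} (z : Fin k → ℝ) (a : Fin N) : ℝ :=
  if h : a.val < k then z ⟨a, h⟩ else 0

theorem cols_mulVec {k : ℕ} (hk : k ≤ N) (h : Fin N × Fin N → ℝ) (z : Fin k → ℝ) (i : Fin N) :
    (cols hk h *ᵥ z) i = (∑ a, h (i, a) * extend z a) / √(N : ℝ) := by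
  simp only [mulVec, dotProduct, cols, Matrix.of_apply, Finset.sum_div]
  rw [← Finset.sum_subset (Finset.subset_univ (Finset.univ.map (Fin.castLEEmb hk)))]
  · rw [Finset.sum_map]
    refine Finset.sum_congr rfl fun a _ => ?_
    simp [extend]
    ring
  · intro a _ ha
    have : ¬ a.val < k := fun h2 => ha (Finset.mem_map.2 ⟨⟨a, h2⟩, Finset.mem_univ _, rfl⟩)
    simp [extend, this]

/-- The gradient of the Gaussian model. -/
noncomputable def grad (β t₀ δ η : ℝ) (hk : ∀ l, k l ≤ N) (g : Fin N × Fin N → ℝ)
    (p : Fin N × Fin N) : ℝ :=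
  β / (2 * N) * avgQ β (gEnergy t₀ δ η hk g spins) fun s => δ * ∑ l,
    2 * (resid (cols (hk l) g) η (spins s) p.1 * extend (zvec (cols (hk l) g) η (spins s)) p.2) / √(N : ℝ)

theorem grad_dot (hk : ∀ l, k l ≤ N) (g h : Fin N × Fin N → ℝ) :
    ∑ p, grad β t₀ δ η hk g p * h p = β / (2 * N) * avgQ β (gEnergy t₀ δ η hk g spins) fun s =>
      δ * ∑ l, 2 * (resid (cols (hk l) g) η (spins s) ⬝ᵥ (cols (hk l) h *ᵥ zvec (cols (hk l) g) η (spins s))) := by
  simp only [grad, mul_assoc (β / (2 * (N : ℝ)))]
  rw [← Finset.mul_sum]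
  congr 1
  rw [Finset.sum_congr rfl fun p _ => (mul_comm _ (h p)).trans (avgQ_mul (β := β) _ _ (h p)).symm,
    ← avgQ_sum]
  congr 1
  funext s
  simp only [dotProduct, cols_mulVec, Fintype.sum_prod_type, Finset.mul_sum, Finset.sum_div]
  rw [Finset.sum_congr rfl fun i _ => Finset.sum_comm, Finset.sum_comm]
  exact Finset.sum_congr rfl fun l _ => Finset.sum_congr rfl fun i _ =>
    Finset.sum_congr rfl fun a _ => by ring

theorem cols_sub {k : ℕ} (hk : k ≤ N) (g g' : Fin N × Fin N → ℝ) :
    cols hk g - cols hk g' = cols hk (g - g') := by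
  ext i a
  simp [cols, sub_div]

theorem sq_mulVec_le {k : ℕ} (hk : k ≤ N) (h : Fin N × Fin N → ℝ) (z : Fin k → ℝ) :
    (cols hk h *ᵥ z) ⬝ᵥ (cols hk h *ᵥ z) ≤ (∑ p, h p ^ 2) / N * (z ⬝ᵥ z) := by
  have h1 : ∀ i, (cols hk h *ᵥ z) i * (cols hk h *ᵥ z) i
      ≤ (∑ a, cols hk h i a ^ 2) * ∑ a, z a ^ 2 := fun i => by
    rw [← sq]; exact Finset.sum_mul_sq_le_sq_mul_sq Finset.univ (cols hk h i) z
  refine (Finset.sum_le_sum fun i _ => h1 i).trans ?_
  rw [← Finset.sum_mul]
  have e : ∑ a, z a ^ 2 = z ⬝ᵥ z := by simp [dotProduct, sq]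
  rw [e]
  refine mul_le_mul_of_nonneg_right ?_ (dot_self_nonneg z)
  rw [Fintype.sum_prod_type, Finset.sum_div]
  refine Finset.sum_le_sum fun i _ => ?_
  simp only [cols, Matrix.of_apply, div_pow, sq_sqrt (Nat.cast_nonneg N), ← Finset.sum_div]
  refine div_le_div_of_nonneg_right ?_ (Nat.cast_nonneg N)
  refine le_trans (le_of_eq ?_) (Finset.sum_le_univ_sum_of_nonneg
    (s := Finset.univ.map (Fin.castLEEmb hk)) fun a => sq_nonneg _)
  rw [Finset.sum_map]
  rfl

theorem abs_grad_dot_le (hβ : 0 ≤ β) (hδ : 0 ≤ δ) (hη : 0 < η) (hN : 0 < N) (hk : ∀ l, k l ≤ N)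
    (g h : Fin N × Fin N → ℝ) :
    |∑ p, grad β t₀ δ η hk g p * h p| ≤ β * δ * M / √(N * η) * √(∑ p, h p ^ 2) := by
  have hNr : (0 : ℝ) < N := by exact_mod_cast hN
  rw [grad_dot, abs_mul, abs_of_nonneg (by positivity : 0 ≤ β / (2 * (N : ℝ)))]
  set S := ∑ p, h p ^ 2
  have hS : 0 ≤ S := Finset.sum_nonneg fun p _ => sq_nonneg _
  have hb : ∀ l s, |resid (cols (hk l) g) η (spins s) ⬝ᵥ
      (cols (hk l) h *ᵥ zvec (cols (hk l) g) η (spins s))| ≤ √(N / η) * √S := fun l s => by
    set r := resid (cols (hk l) g) η (spins s)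
    set z := zvec (cols (hk l) g) η (spins s)
    set w := cols (hk l) h *ᵥ z
    have h1 : (r ⬝ᵥ w) ^ 2 ≤ (r ⬝ᵥ r) * (w ⬝ᵥ w) := by
      simpa [dotProduct, sq] using Finset.sum_mul_sq_le_sq_mul_sq Finset.univ r w
    have h2 : r ⬝ᵥ r ≤ N := (resid_sq_le hη _).trans (spins_dot s).le
    have h3 : z ⬝ᵥ z ≤ N / η := (zvec_sq_le hη _).trans (by rw [spins_dot])
    have h4 : w ⬝ᵥ w ≤ S / N * (N / η) :=
      (sq_mulVec_le (hk l) h z).trans (mul_le_mul_of_nonneg_left h3 (by positivity))
    rw [← sqrt_mul (by positivity) S, ← sqrt_sq_eq_abs]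
    refine sqrt_le_sqrt (h1.trans ((mul_le_mul h2 h4 (dot_self_nonneg w) hNr.le).trans (le_of_eq ?_)))
    field_simp
  have havg := abs_avgQ_le (β := β) (h := gEnergy t₀ δ η hk g spins) (C := δ * (M * (2 * (√(N / η) * √S))))
    (f := fun s => δ * ∑ l, 2 * (resid (cols (hk l) g) η (spins s) ⬝ᵥ
      (cols (hk l) h *ᵥ zvec (cols (hk l) g) η (spins s)))) fun s => by
    rw [abs_mul, abs_of_nonneg hδ]
    refine mul_le_mul_of_nonneg_left ((Finset.abs_sum_le_sum_abs _ _).trans
      ((Finset.sum_le_sum fun l _ => ?_).trans (le_of_eq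
        (a := ∑ _l : Fin M, 2 * (√(N / η) * √S)) ?_))) hδ
    · rw [abs_mul, abs_two]; exact mul_le_mul_of_nonneg_left (hb l s) zero_le_two
    · rw [Finset.sum_const, Finset.card_univ, Fintype.card_fin, nsmul_eq_mul]
  refine (mul_le_mul_of_nonneg_left havg (by positivity)).trans (le_of_eq ?_)
  rw [sqrt_mul hNr.le, sqrt_div hNr.le]
  have := sqrt_pos.2 hNr
  have := sqrt_pos.2 hη
  field_simp
  try rw [sq_sqrt hNr.le]
  try ring

theorem continuous_gEnergy (hη : 0 < η) (hk : ∀ l, k l ≤ N) {X : Type*} [TopologicalSpace X]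
    {F : X → Fin N × Fin N → ℝ} (hF : Continuous F) {x : X → (Fin N → Bool) → Fin N → ℝ}
    (hx : ∀ s, Continuous fun u => x u s) (s : Fin N → Bool) :
    Continuous fun u => gEnergy t₀ δ η hk (F u) (x u) s :=
  continuous_const.add (continuous_const.mul (continuous_finsetSum _ fun l _ =>
    continuous_proj ((continuous_cols (hk l)).comp hF) hη (hx s)))

theorem continuous_gPress (hη : 0 < η) (hk : ∀ l, k l ≤ N) :
    Continuous (gPress β t₀ δ η hk) :=
  continuous_pressQ fun s => continuous_gEnergy hη hk continuous_id (fun _ => continuous_const) s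

theorem continuous_grad (hη : 0 < η) (hk : ∀ l, k l ≤ N) :
    Continuous (grad β t₀ δ η hk) := by
  refine continuous_pi fun p => continuous_const.mul (continuous_avgQ
    (fun s => continuous_gEnergy hη hk continuous_id (fun _ => continuous_const) s) fun s => ?_)
  refine continuous_const.mul (continuous_finsetSum _ fun l _ => ?_)
  have hz := continuous_zvec (continuous_cols (hk l)) hη (x := fun _ : Fin N × Fin N → ℝ => spins s) continuous_const
  refine (continuous_const.mul (Continuous.mul ?_ ?_)).div_const _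
  · exact (continuous_apply p.1).comp (continuous_const.sub ((continuous_cols (hk l)).matrix_mulVec hz))
  · by_cases hp : p.2.val < k l
    · simp only [extend, hp, dif_pos]
      exact (continuous_apply _).comp hz
    · simp only [extend, hp, dif_neg, not_false_iff]
      exact continuous_const

theorem expansion (hβ : 0 ≤ β) (hδ : 0 ≤ δ) (hη : 0 < η) (hN : 0 < N) (hk : ∀ l, k l ≤ N) :
    Expansion (gPress β t₀ δ η hk) (grad β t₀ δ η hk) ((β * δ * M + 1) / √(N * η))
      (β * δ * M / (2 * N * η)) := by
  have hNr : (0 : ℝ) < N := by exact_mod_cast hN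
  have hsq : 0 < √(N * η) := sqrt_pos.2 (by positivity)
  refine ⟨by positivity, by positivity, continuous_gPress hη hk, continuous_grad hη hk, fun g => ?_,
    fun a b => ?_⟩
  · set S := ∑ p, grad β t₀ δ η hk g p ^ 2
    have hS : 0 ≤ S := Finset.sum_nonneg fun p _ => sq_nonneg _
    have h := (le_abs_self _).trans (abs_grad_dot_le (t₀ := t₀) hβ hδ hη hN hk g (grad β t₀ δ η hk g))
    simp only [← sq] at h
    change S ≤ β * δ * M / √(N * η) * √S at h
    have h2 : √S ≤ β * δ * M / √(N * η) := by
      rcases eq_or_lt_of_le hS with h0 | h0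
      · rw [← h0, sqrt_zero]; positivity
      · have := sqrt_pos.2 h0
        nlinarith [sq_sqrt hS]
    calc S = √S ^ 2 := (sq_sqrt hS).symm
      _ ≤ ((β * δ * M + 1) / √(N * η)) ^ 2 := by
        refine pow_le_pow_left₀ (sqrt_nonneg _) (h2.trans ?_) 2
        gcongr
        linarith
  · have key : ∀ a b : Fin N × Fin N → ℝ,
        ∑ p, grad β t₀ δ η hk a p * (b p - a p) - β * δ * M / (2 * N * η) * ∑ p, (b p - a p) ^ 2
          ≤ gPress β t₀ δ η hk b - gPress β t₀ δ η hk a := fun a b => by
      refine le_trans ?_ (pressQ_tangent (β := β) (gEnergy t₀ δ η hk a spins) (gEnergy t₀ δ η hk b spins))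
      set S := ∑ p, (b p - a p) ^ 2
      have hS : 0 ≤ S := Finset.sum_nonneg fun p _ => sq_nonneg _
      have hK : β * δ * M / (2 * N * η) * S
          = β / (2 * N) * avgQ β (gEnergy t₀ δ η hk a spins) fun _ => δ * (M * (S / η)) := by
        rw [avgQ_const]; field_simp
      rw [grad_dot, hK, ← mul_sub, sub_eq_add_neg, ← neg_one_mul (avgQ β _ fun _ => _),
        ← avgQ_mul, ← avgQ_add]
      refine mul_le_mul_of_nonneg_left (avgQ_mono fun s => ?_) (by positivity)
      simp only [gEnergy, add_sub_add_left_eq_sub, ← mul_sub, ← Finset.sum_sub_distrib]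
      have hl : ∀ l, 2 * (resid (cols (hk l) a) η (spins s) ⬝ᵥ
          (cols (hk l) (b - a) *ᵥ zvec (cols (hk l) a) η (spins s))) - S / η
          ≤ proj (cols (hk l) b) η (spins s) - proj (cols (hk l) a) η (spins s) := fun l => by
        have h := proj_sub_le hη (cols (hk l) a) (cols (hk l) b) (spins s)
        rw [cols_sub, show a - b = -(b - a) by abel] at h
        have e : cols (hk l) (-(b - a)) = -cols (hk l) (b - a) := by
          ext i c; simp only [cols, Matrix.of_apply, Matrix.neg_apply, Pi.neg_apply, neg_div]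
        rw [e, neg_mulVec, dotProduct_neg, neg_dotProduct, dotProduct_neg, neg_neg] at h
        have h2 := sq_mulVec_le (hk l) (b - a) (zvec (cols (hk l) a) η (spins s))
        have h3 := zvec_sq_le (G := cols (hk l) a) hη (spins s)
        rw [spins_dot] at h3
        have h4 : S / N * (N / η) = S / η := by field_simp
        have h5 := mul_le_mul_of_nonneg_left h3 (by positivity : (0 : ℝ) ≤ S / N)
        have h6 : (∑ p, (b - a) p ^ 2) = S := rfl
        rw [h6] at h2
        linarith
      refine le_trans (le_of_eq ?_) (mul_le_mul_of_nonneg_left (Finset.sum_le_sum fun l _ => hl l) hδ)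
      rw [Finset.sum_sub_distrib, Finset.sum_const, Finset.card_univ, Fintype.card_fin, nsmul_eq_mul]
      have : (fun p => b p - a p) = b - a := rfl
      rw [this]
      ring
    have h1 := key a b
    have h2 := key b a
    have e : ∑ p, grad β t₀ δ η hk b p * (a p - b p) = -∑ p, grad β t₀ δ η hk b p * (b p - a p) := by
      rw [← Finset.sum_neg_distrib]; exact Finset.sum_congr rfl fun p _ => by ring
    have e2 : ∑ p, (a p - b p) ^ 2 = ∑ p, (b p - a p) ^ 2 := Finset.sum_congr rfl fun p _ => by ring
    rw [e, e2] at h2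
    rw [abs_sub_le_iff]
    constructor <;> linarith [le_abs_self (∑ p, grad β t₀ δ η hk b p * (b p - a p)),
      neg_abs_le (∑ p, grad β t₀ δ η hk b p * (b p - a p)),
      le_abs_self (∑ p, grad β t₀ δ η hk a p * (b p - a p)),
      neg_abs_le (∑ p, grad β t₀ δ η hk a p * (b p - a p)),
      abs_nonneg (∑ p, grad β t₀ δ η hk a p * (b p - a p)),
      abs_nonneg (∑ p, grad β t₀ δ η hk b p * (b p - a p)),
      mul_nonneg (show 0 ≤ β * δ * M / (2 * N * η) by positivity)
        (Finset.sum_nonneg (s := (Finset.univ : Finset (Fin N × Fin N))) fun p _ => sq_nonneg (b p - a p))]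

/-- `Uᵀ` applied to every column of the array. -/
noncomputable def turn (U : Fin N → Fin N → ℝ) (g : Fin N × Fin N → ℝ) : Fin N × Fin N → ℝ :=
  fun p => ∑ j, U j p.1 * g (j, p.2)

theorem measurePreserving_turn {U : Fin N → Fin N → ℝ} (hU : IsOrth U) :
    MeasurePreserving (turn U) (stdPi (Fin N × Fin N)) (stdPi (Fin N × Fin N)) := by
  let K : Matrix (Fin N × Fin N) (Fin N × Fin N) ℝ :=
    Matrix.of fun p q => U q.1 p.1 * if p.2 = q.2 then 1 else 0
  have hK : Kᵀ * K = 1 := by
    ext ⟨i, a⟩ ⟨j, b⟩
    simp only [K, Matrix.mul_apply, Matrix.transpose_apply, Matrix.of_apply, Fintype.sum_prod_type]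
    simp only [mul_ite, ite_mul, mul_one, mul_zero, zero_mul, Finset.sum_ite_eq', Finset.mem_univ, if_true,
      Matrix.one_apply]
    by_cases hab : a = b
    · subst hab; simp [hU.1]
    · simp [hab, Ne.symm hab]
  have e : turn U = fun g => K *ᵥ g := by
    funext g p
    simp [turn, K, mulVec, dotProduct, Fintype.sum_prod_type]
  rw [e]
  exact measurePreserving_orth K hK

theorem gEnergy_turn (hk : ∀ l, k l ≤ N) {U : Fin N → Fin N → ℝ} (hU : IsOrth U)
    (g : Fin N × Fin N → ℝ) :
    gEnergy t₀ δ η hk g (rotate U) = gEnergy t₀ δ η hk (turn U g) spins := by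
  funext s
  simp only [gEnergy]
  congr 2
  refine Finset.sum_congr rfl fun l _ => ?_
  have hV : (Matrix.of U)ᵀᵀ * (Matrix.of U)ᵀ = 1 := by
    rw [transpose_transpose]; exact (isOrth_iff U).1 hU
  have hV' : (Matrix.of U)ᵀ * Matrix.of U = 1 := mul_eq_one_comm.1 ((isOrth_iff U).1 hU)
  have h := proj_rotate (Matrix.of U)ᵀ hV (cols (hk l) g) η (rotate U s)
  rw [rotate_eq, mulVec_mulVec, hV', one_mulVec] at h
  have e : (Matrix.of U)ᵀ * cols (hk l) g = cols (hk l) (turn U g) := by
    ext i a
    simp [cols, turn, Matrix.mul_apply, Finset.sum_div, mul_div_assoc]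
  rw [e] at h
  exact h.symm

/-- Orthonormal coordinates adapted to the columns of `g`. -/
theorem exists_adapted (g : Fin N × Fin N → ℝ) :
    ∃ O : Fin N → Fin N → ℝ, IsOrth O ∧ ∀ i a : Fin N, a < i → ∑ j, O i j * g (j, a) = 0 := by
  let f : Fin N → EuclideanSpace ℝ (Fin N) := fun a => WithLp.toLp 2 fun j => g (j, a)
  have hd : Module.finrank ℝ (EuclideanSpace ℝ (Fin N)) = Fintype.card (Fin N) := finrank_euclideanSpace
  let e := InnerProductSpace.gramSchmidtOrthonormalBasis hd f
  refine ⟨fun i j => e i j, (isOrth_iff _).2 ?_, fun i a ha => ?_⟩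
  · ext a b
    have h := orthonormal_iff_ite.1 e.orthonormal a b
    simp only [EuclideanSpace.inner_eq_star_dotProduct, star_trivial, dotProduct] at h
    simp only [Matrix.mul_apply, Matrix.transpose_apply, Matrix.of_apply, Matrix.one_apply]
    rw [← h]
    exact Finset.sum_congr rfl fun j _ => mul_comm _ _
  · have h := InnerProductSpace.gramSchmidtOrthonormalBasis_inv_triangular hd f ha
    simp only [EuclideanSpace.inner_eq_star_dotProduct, star_trivial, dotProduct, f] at h
    rw [← h]
    exact Finset.sum_congr rfl fun j _ => mul_comm _ _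

theorem abs_pressQ_le (hβ : 0 ≤ β) {h : (Fin N → Bool) → ℝ} {C : ℝ} (hC : ∀ s, |h s| ≤ C) :
    |pressQ β h| ≤ β / (2 * N) * C := by
  have h0 : pressQ β (fun _ : Fin N → Bool => (0 : ℝ)) = 0 := by simp [pressQ]
  have h1 := pressQ_tangent (β := β) (fun _ => 0) h
  have h2 := pressQ_tangent (β := β) h (fun _ => 0)
  simp only [h0, sub_zero, zero_sub] at h1 h2
  have hc : 0 ≤ β / (2 * (N : ℝ)) := by positivity
  have b1 : |avgQ β (fun _ : Fin N → Bool => (0 : ℝ)) h| ≤ C := abs_avgQ_le hC
  have b2 : |avgQ β h fun s => -h s| ≤ C := abs_avgQ_le fun s => by rw [abs_neg]; exact hC s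
  rw [abs_le]
  exact ⟨by nlinarith [(abs_le.1 b1).1], by nlinarith [(abs_le.1 b2).1]⟩

/-- Concentration for a step spectrum. -/
theorem integral_step_le {m : Measure (Fin N → Fin N → ℝ)} (hm : IsHaarOrth m) (hβ : 0 ≤ β)
    (hδ : 0 ≤ δ) (hη : 0 < η) (hN : 0 < N) (hk : ∀ l, k l ≤ N) {k₀ : ℕ} (h0 : 0 < k₀)
    (h0N : k₀ ≤ N) (hk₀ : ∀ l, k₀ ≤ k l) :
    ∫ U, |press β (stepVec N t₀ δ k) U - centre β t₀ δ η hk| ∂m
      ≤ β * δ * M / (2 * k₀) * (N * √(η + 1 / N)) + 8 * ((β * δ * M + 1) / √(N * η)) := by
  have := hm.1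
  set D := stepVec N t₀ δ k with hD
  set c := centre β t₀ δ η hk
  set P := stdPi (Fin N × Fin N)
  have hNr : (0 : ℝ) < N := by exact_mod_cast hN
  have hk0r : (0 : ℝ) < k₀ := by exact_mod_cast h0
  set pg : (Fin N × Fin N → ℝ) × (Fin N → Fin N → ℝ) → ℝ :=
    fun q => pressQ β (gEnergy t₀ δ η hk q.1 (rotate q.2)) with hpg
  have hpgc : Continuous pg := continuous_pressQ fun s => continuous_gEnergy hη hk continuous_fst
    (fun s => continuous_pi fun i => (continuous_rotate s i).comp continuous_snd) s
  set B := β / (2 * N) * ((|t₀| + δ * M) * N)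
  have hB : ∀ g U, IsOrth U → |pg (g, U)| ≤ B := fun g U hU => abs_pressQ_le hβ fun s => by
    refine (abs_add_le _ _).trans ?_
    rw [abs_mul, Nat.abs_cast, abs_mul, abs_of_nonneg hδ, add_mul, mul_assoc δ]
    refine add_le_add le_rfl (mul_le_mul_of_nonneg_left ((Finset.abs_sum_le_sum_abs _ _).trans
      ((Finset.sum_le_sum fun l _ => ?_).trans (le_of_eq (a := ∑ _l : Fin M, (N : ℝ)) ?_))) hδ)
    · rw [abs_of_nonneg (proj_nonneg hη _)]
      refine (proj_le_dot hη _).trans (le_of_eq (b := (N : ℝ)) ?_)
      rw [← sum_sq_rotate hU s]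
      simp [dotProduct, sq]
    · simp
  have hF : Integrable (fun q => |pg q - c|) (P.prod m) := by
    refine Integrable.of_bound (hpgc.sub continuous_const).abs.aestronglyMeasurable (B + |c|) ?_
    filter_upwards [(Measure.quasiMeasurePreserving_snd (μ := P) (ν := m)).ae hm.2.1] with q hq
    rw [Real.norm_eq_abs, abs_abs]
    exact (abs_sub _ _).trans (add_le_add (hB q.1 q.2 hq) le_rfl)
  set E : (Fin N × Fin N → ℝ) → ℝ := fun g => β * δ / (2 * k₀) * ∑ l, lost η (hk l) g
  have hEI : Integrable E P := (integrable_finsetSum _ fun l _ => integrable_lost hη (hk l)).const_mul _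
  have hg : ∀ g, ∫ U, |press β D U - c| ∂m ≤ E g + ∫ U, |pg (g, U) - c| ∂m := by
    intro g
    obtain ⟨O, hO, htri⟩ := exists_adapted g
    have hOm : (Matrix.of O)ᵀ * Matrix.of O = 1 := mul_eq_one_comm.1 ((isOrth_iff O).1 hO)
    set G : ∀ l, Matrix (Fin N) (Fin (k l)) ℝ := fun l => Matrix.of O * cols (hk l) g with hG
    set S : Fin M → Finset (Fin N) := fun l => Finset.univ.filter fun i : Fin N => i.val < k l
    have hGS : ∀ l, ∀ i ∉ S l, ∀ a, G l i a = 0 := fun l i hi a => by
      have hlt : Fin.castLE (hk l) a < i := by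
        simp only [S, Finset.mem_filter, Finset.mem_univ, true_and, not_lt] at hi
        exact Fin.lt_def.2 (lt_of_lt_of_le a.2 hi)
      simp only [G, cols, Matrix.mul_apply, Matrix.of_apply, ← mul_div_assoc, ← Finset.sum_div,
        htri i _ hlt, zero_div]
    have hED : ∀ (W : Fin N → Fin N → ℝ) (hW : IsOrth W) s,
        energy D W s = t₀ * N + δ * ∑ l, ∑ i ∈ S l, rotate W s i ^ 2 := fun W hW s => by
      simp only [energy, D, stepVec, add_mul, Finset.sum_add_distrib, ← Finset.mul_sum, mul_assoc,
        sum_sq_rotate hW s, Finset.sum_mul, S, Finset.sum_filter]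
      rw [Finset.sum_comm]
      simp [ite_mul]
    set gap : (Fin N → Fin N → ℝ) → (Fin N → Bool) → ℝ := fun W s =>
      δ * ∑ l, (∑ i ∈ S l, rotate W s i ^ 2 - proj (G l) η (rotate W s))
    have hgap0 : ∀ W s, 0 ≤ gap W s := fun W s => mul_nonneg hδ
      (Finset.sum_nonneg fun l _ => sub_nonneg.2 (proj_le_support hη (S l) (hGS l) _))
    set Ψ : (Fin N → Fin N → ℝ) → ℝ := fun W => β / (2 * N) * avgQ β (energy D W) (gap W)
    have hgapc : ∀ s, Continuous fun W => gap W s := fun s =>
      continuous_const.mul (continuous_finsetSum _ fun l _ =>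
        (continuous_finsetSum _ fun i _ => (continuous_rotate s i).pow 2).sub
          (continuous_proj continuous_const hη (continuous_pi fun i => continuous_rotate s i)))
    have hΨc : Continuous Ψ := continuous_const.mul (continuous_avgQ (continuous_energy D) hgapc)
    have hΨ0 : ∀ W, 0 ≤ Ψ W := fun W => mul_nonneg (by positivity) (avgQ_nonneg (hgap0 W))
    have hΨI : Integrable Ψ m := by
      refine integrable_of_bound hm hΨc (C := β / (2 * N) * (δ * (M * N))) fun W hW => ?_
      rw [abs_of_nonneg (hΨ0 W)]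
      refine mul_le_mul_of_nonneg_left ((le_abs_self _).trans (abs_avgQ_le fun s => ?_)) (by positivity)
      rw [abs_of_nonneg (hgap0 W s)]
      refine mul_le_mul_of_nonneg_left ((Finset.sum_le_sum fun l _ => ?_).trans (le_of_eq
        (a := ∑ _l : Fin M, (N : ℝ)) (by simp))) hδ
      have h1 : ∑ i ∈ S l, rotate W s i ^ 2 ≤ N :=
        (Finset.sum_le_univ_sum_of_nonneg fun i => sq_nonneg _).trans (sum_sq_rotate hW s).le
      linarith [proj_nonneg (G := G l) hη (rotate W s)]
    have hpt : ∀ U, IsOrth U → |press β D (mul O U) - pg (g, U)| ≤ Ψ (mul O U) := by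
      intro U hU
      have hW := hO.mul hU
      have hval : ∀ s, gEnergy t₀ δ η hk g (rotate U) s = energy D (mul O U) s - gap (mul O U) s := fun s => by
        rw [hED _ hW]
        simp only [gEnergy, gap, Finset.sum_sub_distrib, mul_sub]
        have : ∀ l, proj (G l) η (rotate (mul O U) s) = proj (cols (hk l) g) η (rotate U s) := fun l => by
          have e : rotate (mul O U) s = Matrix.of O *ᵥ rotate U s := by
            funext i; rw [rotate_mul]; rfl
          rw [e, hG]
          exact proj_rotate _ hOm _ η _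
        simp only [this]
        ring
      have h1 := pressQ_tangent (β := β) (energy D (mul O U)) (gEnergy t₀ δ η hk g (rotate U))
      have h2 := pressQ_tangent (β := β) (gEnergy t₀ δ η hk g (rotate U)) (energy D (mul O U))
      have e1 : (fun s => gEnergy t₀ δ η hk g (rotate U) s - energy D (mul O U) s)
          = fun s => -1 * gap (mul O U) s := funext fun s => by rw [hval]; ring
      have e2 : (fun s => energy D (mul O U) s - gEnergy t₀ δ η hk g (rotate U) s)
          = gap (mul O U) := funext fun s => by rw [hval]; ring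
      rw [e1, avgQ_mul] at h1
      rw [e2] at h2
      have h3 : (0 : ℝ) ≤ β / (2 * N) * avgQ β (gEnergy t₀ δ η hk g (rotate U)) (gap (mul O U)) :=
        mul_nonneg (by positivity) (avgQ_nonneg (hgap0 _))
      rw [press_eq]
      change |pressQ β (energy D (mul O U)) - pressQ β (gEnergy t₀ δ η hk g (rotate U))| ≤ Ψ (mul O U)
      rw [abs_le]
      constructor
      · linarith [hΨ0 (mul O U)]
      · simp only [Ψ]; linarith
    have hmass : ∀ i, mass β m D i ≤ N / k₀ := fun i => by
      rw [le_div_iff₀ hk0r, mul_comm]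
      have h := mass_le_top (β := β) hm hβ D (Finset.univ.filter fun j : Fin N => j.val < k₀)
        (fun a j hj => by
          simp only [Finset.mem_filter, Finset.mem_univ, true_and] at hj
          simp only [D, stepVec]
          refine add_le_add le_rfl (mul_le_mul_of_nonneg_left (Finset.sum_le_sum fun l _ => ?_) hδ)
          rw [if_pos (lt_of_lt_of_le hj (hk₀ l))]
          split_ifs <;> norm_num) i
      have hcard : (Finset.univ.filter fun j : Fin N => j.val < k₀).card = k₀ := by
        rw [Fin.card_filter_val_lt, min_eq_right h0N]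
      rwa [hcard] at h
    have hΨint : ∫ W, Ψ W ∂m ≤ E g := by
      set pairAvg : (Fin N → Fin N → ℝ) → Fin N → Fin N → ℝ := fun W i j =>
        avgQ β (energy D W) fun s => rotate W s i * rotate W s j
      set coef : Fin N → Fin N → ℝ := fun i j =>
        δ * ∑ l, ((if i = j ∧ i ∈ S l then 1 else 0) - tmat (G l) η i j)
      have hΨe : Ψ = fun W => β / (2 * N) * ∑ i, ∑ j, coef i j * pairAvg W i j := by
        funext W
        simp only [Ψ, pairAvg, coef]
        congr 1
        simp only [← avgQ_mul]
        simp only [← avgQ_sum]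
        congr 1
        funext s
        simp only [gap, mul_assoc, ← Finset.mul_sum, Finset.sum_mul, sub_mul]
        congr 1
        rw [Finset.sum_congr rfl fun i _ => Finset.sum_comm, Finset.sum_comm]
        refine Finset.sum_congr rfl fun l _ => ?_
        simp only [Finset.sum_sub_distrib, ← proj_eq_sum]
        congr 1
        simp only [ite_mul, one_mul, zero_mul, ite_and, Finset.sum_ite_eq, Finset.mem_univ, if_true]
        rw [← Finset.sum_filter]
        exact Finset.sum_congr (by simp [S]) fun i _ => sq _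
      have hpc : ∀ i j, Continuous fun W => pairAvg W i j := fun i j =>
        continuous_avgQ (continuous_energy D) fun s => (continuous_rotate s i).mul (continuous_rotate s j)
      have hpI : ∀ i j, Integrable (fun W => pairAvg W i j) m := fun i j =>
        integrable_of_bound hm (hpc i j) (C := N) fun W hW => abs_avgQ_le fun s => by
          have h1 := Finset.single_le_sum (fun q _ => sq_nonneg (rotate W s q)) (Finset.mem_univ i)
          have h2 := Finset.single_le_sum (fun q _ => sq_nonneg (rotate W s q)) (Finset.mem_univ j)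
          rw [sum_sq_rotate hW s] at h1 h2
          rw [abs_le]
          constructor <;> nlinarith [sq_nonneg (rotate W s i - rotate W s j),
            sq_nonneg (rotate W s i + rotate W s j)]
      rw [hΨe, integral_const_mul, integral_finsetSum _ fun i _ =>
        integrable_finsetSum _ fun j _ => (hpI i j).const_mul _]
      have hdiag : ∀ i, ∫ W, ∑ j, coef i j * pairAvg W i j ∂m = coef i i * mass β m D i := fun i => by
        rw [integral_finsetSum _ fun j _ => (hpI i j).const_mul _, Finset.sum_eq_single i]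
        · rw [integral_const_mul]
          simp only [mass, weight, pairAvg, sq]
        · intro j _ hj
          rw [integral_const_mul, integral_cross hm D (Ne.symm hj), mul_zero]
        · exact fun h => absurd (Finset.mem_univ i) h
      simp only [hdiag]
      have hc0 : ∀ i, 0 ≤ coef i i := fun i => mul_nonneg hδ (Finset.sum_nonneg fun l _ => by
        rw [sub_nonneg]
        by_cases hi : i ∈ S l
        · rw [if_pos ⟨rfl, hi⟩]; exact (tmat_diag_mem hη i).2
        · rw [if_neg fun h => hi h.2, tmat_diag]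
          refine (proj_le_support hη (S l) (hGS l) _).trans (le_of_eq ?_)
          exact Finset.sum_eq_zero fun q hq => by
            rw [Pi.single_apply, if_neg fun (e : q = i) => hi (e ▸ hq)]; norm_num)
      have hsum : ∑ i, coef i i = δ * ∑ l, lost η (hk l) g := by
        simp only [coef, ← Finset.mul_sum, true_and]
        rw [Finset.sum_comm]
        congr 1
        refine Finset.sum_congr rfl fun l _ => ?_
        rw [Finset.sum_sub_distrib, ← Finset.sum_filter, Finset.sum_const, nsmul_one]
        have hc : (Finset.univ.filter fun i : Fin N => i ∈ S l).card = k l := by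
          simp only [S, Finset.mem_filter, Finset.mem_univ, true_and, Fin.card_filter_val_lt,
            min_eq_right (hk l)]
        have ht := trace_tmat (G := G l) hη
        simp only [G, reg_rotate _ hOm] at ht
        simp only [Matrix.trace, Matrix.diag] at ht
        rw [hc, lost, ht]
        simp only [Matrix.trace, Matrix.diag]
        ring
      refine (mul_le_mul_of_nonneg_left (Finset.sum_le_sum fun i _ =>
        mul_le_mul_of_nonneg_left (hmass i) (hc0 i)) (by positivity)).trans (le_of_eq ?_)
      rw [← Finset.sum_mul, hsum]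
      simp only [E]
      field_simp
    have hI1 : Integrable (fun U => |press β D (mul O U) - c|) m := by
      refine integrable_of_bound hm ((((continuous_press D).comp (continuous_mul O))).sub continuous_const).abs
        (C := β * ∑ i, |D i| + |c|) fun U hU => ?_
      rw [abs_abs]
      exact (abs_sub _ _).trans (add_le_add (abs_press_le hβ hN.ne' D (hO.mul hU)) le_rfl)
    have hI2 : Integrable (fun U => |pg (g, U) - c|) m := by
      refine integrable_of_bound hm ((hpgc.comp (continuous_const.prodMk continuous_id)).sub continuous_const).abs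
        (C := B + |c|) fun U hU => ?_
      rw [abs_abs]
      exact (abs_sub _ _).trans (add_le_add (hB g U hU) le_rfl)
    have hI3 : Integrable (fun U => Ψ (mul O U)) m := by
      rw [← hm.2.2 O hO] at hΨI
      exact hΨI.comp_measurable (continuous_mul O).measurable
    calc ∫ U, |press β D U - c| ∂m = ∫ U, |press β D (mul O U) - c| ∂m :=
          (integral_left hm hO ((continuous_press D).sub continuous_const).abs).symm
      _ ≤ ∫ U, (Ψ (mul O U) + |pg (g, U) - c|) ∂m :=
          integral_le_of_orth hm hI1 (hI3.add hI2) fun U hU =>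
            (abs_sub_le _ (pg (g, U)) c).trans (add_le_add (hpt U hU) le_rfl)
      _ ≤ E g + ∫ U, |pg (g, U) - c| ∂m := by
          rw [integral_add hI3 hI2, integral_left hm hO hΨc]
          linarith
  have hEc : ∫ g, E g ∂P ≤ β * δ * M / (2 * k₀) * (N * √(η + 1 / N)) := by
    simp only [E]
    rw [integral_const_mul, integral_finsetSum _ fun l _ => integrable_lost hη (hk l)]
    refine (mul_le_mul_of_nonneg_left (Finset.sum_le_sum fun l _ => integral_lost_le hη hN (hk l))
      (by positivity)).trans (le_of_eq ?_)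
    simp only [Finset.sum_const, Finset.card_univ, Fintype.card_fin, nsmul_eq_mul]
    ring
  have hP : Integrable (fun g => ∫ U, |pg (g, U) - c| ∂m) P := hF.integral_prod_left
  have hconc := (expansion (t₀ := t₀) hβ hδ hη hN hk).concentration
  calc ∫ U, |press β D U - c| ∂m = ∫ _g, ∫ U, |press β D U - c| ∂m ∂P := by simp
    _ ≤ ∫ g, (E g + ∫ U, |pg (g, U) - c| ∂m) ∂P := integral_mono (integrable_const _) (hEI.add hP) hg
    _ = ∫ g, E g ∂P + ∫ U, ∫ g, |pg (g, U) - c| ∂P ∂m := by
        rw [integral_add hEI hP, integral_integral_swap hF]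
    _ ≤ _ := by
        refine add_le_add hEc ?_
        have h : ∀ U, IsOrth U → ∫ g, |pg (g, U) - c| ∂P ≤ 8 * ((β * δ * M + 1) / √(N * η)) := fun U hU => by
          have e : ∀ g, pg (g, U) = gPress β t₀ δ η hk (turn U g) := fun g => by
            simp only [pg, gPress, gEnergy_turn hk hU]
          simp only [e]
          refine le_trans (le_of_eq ?_) hconc
          have hI := integral_map (μ := P) (measurePreserving_turn hU).measurable.aemeasurable
            (f := fun x => |gPress β t₀ δ η hk x - c|)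
            (((continuous_gPress hη hk).sub continuous_const).abs.aestronglyMeasurable)
          rw [(measurePreserving_turn hU).map_eq] at hI
          exact hI.symm
        refine (integral_mono_ae hF.integral_prod_right (integrable_const _)
          (hm.2.1.mono fun U hU => h U hU)).trans (le_of_eq ?_)
        simp

end Vale.Agent.P166
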