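import Mathlib

/-!
# P166: regularised projections `G (Gᵀ G + η)⁻¹ Gᵀ`
-/

open Matrix

namespace Vale.Agent.P166

variable {N k : ℕ}

/-- `Gᵀ G + η`. -/
noncomputable def reg (G : Matrix (Fin N) (Fin k) ℝ) (η : ℝ) : Matrix (Fin k) (Fin k) ℝ :=
  Gᵀ * G + η • (1 : Matrix (Fin k) (Fin k) ℝ)

/-- The maximiser. -/
noncomputable def zvec (G : Matrix (Fin N) (Fin k) ℝ) (η : ℝ) (x : Fin N → ℝ) : Fin k → ℝ :=
  (reg G η)⁻¹ *ᵥ (Gᵀ *ᵥ x)

/-- The residual `x - G z`. -/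
noncomputable def resid (G : Matrix (Fin N) (Fin k) ℝ) (η : ℝ) (x : Fin N → ℝ) : Fin N → ℝ :=
  x - G *ᵥ zvec G η x

/-- The quadratic form of the regularised projection. -/
noncomputable def proj (G : Matrix (Fin N) (Fin k) ℝ) (η : ℝ) (x : Fin N → ℝ) : ℝ :=
  x ⬝ᵥ (G *ᵥ zvec G η x)

/-- The functional maximised by `zvec`. -/
noncomputable def obj (G : Matrix (Fin N) (Fin k) ℝ) (η : ℝ) (x : Fin N → ℝ) (w : Fin k → ℝ) : ℝ :=
  2 * (x ⬝ᵥ (G *ᵥ w)) - (G *ᵥ w) ⬝ᵥ (G *ᵥ w) - η * (w ⬝ᵥ w)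

theorem dot_self_nonneg {ι : Type*} [Fintype ι] (v : ι → ℝ) : 0 ≤ v ⬝ᵥ v :=
  Finset.sum_nonneg fun i _ => mul_self_nonneg (v i)

variable {G : Matrix (Fin N) (Fin k) ℝ} {η : ℝ}

theorem reg_posDef (G : Matrix (Fin N) (Fin k) ℝ) (hη : 0 < η) : (reg G η).PosDef := by
  have h1 := posSemidef_conjTranspose_mul_self G
  rw [conjTranspose_eq_transpose_of_trivial] at h1
  exact PosDef.posSemidef_add h1 (PosDef.one.smul hη)

theorem isUnit_det_reg (G : Matrix (Fin N) (Fin k) ℝ) (hη : 0 < η) : IsUnit (reg G η).det :=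
  (Matrix.isUnit_iff_isUnit_det _).1 (reg_posDef G hη).isUnit

theorem reg_transpose (G : Matrix (Fin N) (Fin k) ℝ) (η : ℝ) : (reg G η)ᵀ = reg G η := by
  simp [reg]

theorem reg_inv_transpose (G : Matrix (Fin N) (Fin k) ℝ) (η : ℝ) :
    ((reg G η)⁻¹)ᵀ = (reg G η)⁻¹ := by
  rw [transpose_nonsing_inv, reg_transpose]

theorem dot_reg (G : Matrix (Fin N) (Fin k) ℝ) (η : ℝ) (w v : Fin k → ℝ) :
    w ⬝ᵥ (reg G η *ᵥ v) = (G *ᵥ w) ⬝ᵥ (G *ᵥ v) + η * (w ⬝ᵥ v) := by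
  rw [reg, add_mulVec, dotProduct_add, ← mulVec_mulVec, dotProduct_mulVec, vecMul_transpose,
    smul_mulVec, one_mulVec, dotProduct_smul, smul_eq_mul]

theorem reg_zvec (hη : 0 < η) (x : Fin N → ℝ) : reg G η *ᵥ zvec G η x = Gᵀ *ᵥ x := by
  rw [zvec, mulVec_mulVec, mul_nonsing_inv _ (isUnit_det_reg G hη), one_mulVec]

theorem dot_G (hη : 0 < η) (x : Fin N → ℝ) (w : Fin k → ℝ) :
    x ⬝ᵥ (G *ᵥ w) = (G *ᵥ w) ⬝ᵥ (G *ᵥ zvec G η x) + η * (w ⬝ᵥ zvec G η x) := by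
  rw [← dot_reg, reg_zvec hη, dotProduct_comm x, dotProduct_mulVec w, vecMul_transpose]

theorem proj_eq_sq (hη : 0 < η) (x : Fin N → ℝ) :
    proj G η x = (G *ᵥ zvec G η x) ⬝ᵥ (G *ᵥ zvec G η x) + η * (zvec G η x ⬝ᵥ zvec G η x) :=
  dot_G hη x (zvec G η x)

theorem proj_nonneg (hη : 0 < η) (x : Fin N → ℝ) : 0 ≤ proj G η x := by
  rw [proj_eq_sq hη]
  exact add_nonneg (dot_self_nonneg _) (mul_nonneg hη.le (dot_self_nonneg _))

theorem obj_zvec (hη : 0 < η) (x : Fin N → ℝ) : obj G η x (zvec G η x) = proj G η x := by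
  rw [obj, ← proj, proj_eq_sq hη]
  ring

theorem resid_sq (hη : 0 < η) (x : Fin N → ℝ) :
    resid G η x ⬝ᵥ resid G η x + η * (zvec G η x ⬝ᵥ zvec G η x) = x ⬝ᵥ x - proj G η x := by
  rw [resid, sub_dotProduct, dotProduct_sub, dotProduct_sub, dotProduct_comm (G *ᵥ zvec G η x) x,
    ← proj]
  linarith [proj_eq_sq (G := G) hη x]

theorem proj_le_dot (hη : 0 < η) (x : Fin N → ℝ) : proj G η x ≤ x ⬝ᵥ x := by
  linarith [resid_sq (G := G) hη x, dot_self_nonneg (resid G η x),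
    mul_nonneg hη.le (dot_self_nonneg (zvec G η x))]

theorem zvec_sq_le (hη : 0 < η) (x : Fin N → ℝ) :
    zvec G η x ⬝ᵥ zvec G η x ≤ (x ⬝ᵥ x) / η := by
  rw [le_div_iff₀ hη, mul_comm]
  linarith [resid_sq (G := G) hη x, dot_self_nonneg (resid G η x), proj_nonneg (G := G) hη x]

theorem resid_sq_le (hη : 0 < η) (x : Fin N → ℝ) : resid G η x ⬝ᵥ resid G η x ≤ x ⬝ᵥ x := by
  linarith [resid_sq (G := G) hη x, proj_nonneg (G := G) hη x,
    mul_nonneg hη.le (dot_self_nonneg (zvec G η x))]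

theorem obj_le_proj (hη : 0 < η) (x : Fin N → ℝ) (w : Fin k → ℝ) : obj G η x w ≤ proj G η x := by
  set z := zvec G η x
  have h1 := dot_self_nonneg (G *ᵥ w - G *ᵥ z)
  have h2 := mul_nonneg hη.le (dot_self_nonneg (w - z))
  simp only [sub_dotProduct, dotProduct_sub, dotProduct_comm (G *ᵥ z) (G *ᵥ w),
    dotProduct_comm z w, mul_sub] at h1 h2
  rw [obj, dot_G hη, proj_eq_sq hη]
  linarith

/-- The first-order bound for a change of `G`. -/
theorem proj_sub_le (hη : 0 < η) (G G' : Matrix (Fin N) (Fin k) ℝ) (x : Fin N → ℝ) :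
    proj G η x - proj G' η x ≤ 2 * (resid G η x ⬝ᵥ ((G - G') *ᵥ zvec G η x))
      + ((G - G') *ᵥ zvec G η x) ⬝ᵥ ((G - G') *ᵥ zvec G η x) := by
  set z := zvec G η x
  refine (sub_le_sub_left (obj_le_proj hη x z) _).trans (le_of_eq ?_)
  rw [← obj_zvec hη x, obj, obj, resid]
  simp only [sub_mulVec, sub_dotProduct, dotProduct_sub, mul_sub]
  rw [dotProduct_comm (G' *ᵥ z) (G *ᵥ z)]
  ring

theorem reg_rotate (V : Matrix (Fin N) (Fin N) ℝ) (hV : Vᵀ * V = 1) (G : Matrix (Fin N) (Fin k) ℝ)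
    (η : ℝ) : reg (V * G) η = reg G η := by
  rw [reg, reg, transpose_mul, Matrix.mul_assoc, ← Matrix.mul_assoc Vᵀ, hV, Matrix.one_mul]

/-- Rotating the columns of `G` rotates the quadratic form. -/
theorem proj_rotate (V : Matrix (Fin N) (Fin N) ℝ) (hV : Vᵀ * V = 1) (G : Matrix (Fin N) (Fin k) ℝ)
    (η : ℝ) (x : Fin N → ℝ) : proj (V * G) η (V *ᵥ x) = proj G η x := by
  have hr : reg (V * G) η = reg G η := reg_rotate V hV G η
  have hz : zvec (V * G) η (V *ᵥ x) = zvec G η x := by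
    simp only [zvec, hr, mulVec_mulVec, transpose_mul, Matrix.mul_assoc, hV, Matrix.mul_one]
  rw [proj, proj, hz, ← mulVec_mulVec, dotProduct_mulVec, vecMul_mulVec, hV, vecMul_one]

/-- The form is below any coordinate projection whose kernel is orthogonal to the range of `G`. -/
theorem proj_le_support (hη : 0 < η) (S : Finset (Fin N)) (hS : ∀ i ∉ S, ∀ a, G i a = 0)
    (x : Fin N → ℝ) : proj G η x ≤ ∑ i ∈ S, x i ^ 2 := by
  rw [← obj_zvec hη x, obj]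
  set w := zvec G η x
  have h0 : ∀ i ∉ S, (G *ᵥ w) i = 0 := fun i hi => by
    simp [mulVec, dotProduct, hS i hi]
  have hs : ∀ v : Fin N → ℝ, v ⬝ᵥ (G *ᵥ w) = ∑ i ∈ S, v i * (G *ᵥ w) i := fun v => by
    refine (Finset.sum_subset (Finset.subset_univ S) fun i _ hi => ?_).symm
    rw [h0 i hi, mul_zero]
  rw [hs x, hs (G *ᵥ w)]
  have h1 : ∀ i ∈ S, 2 * (x i * (G *ᵥ w) i) - (G *ᵥ w) i * (G *ᵥ w) i ≤ x i ^ 2 := fun i _ => by
    nlinarith [sq_nonneg (x i - (G *ᵥ w) i)]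
  have h2 := Finset.sum_le_sum h1
  rw [Finset.sum_sub_distrib, ← Finset.mul_sum] at h2
  linarith [mul_nonneg hη.le (dot_self_nonneg w)]

/-- `G (Gᵀ G + η)⁻¹ Gᵀ`. -/
noncomputable def tmat (G : Matrix (Fin N) (Fin k) ℝ) (η : ℝ) : Matrix (Fin N) (Fin N) ℝ :=
  G * (reg G η)⁻¹ * Gᵀ

theorem proj_eq_sum (G : Matrix (Fin N) (Fin k) ℝ) (η : ℝ) (x : Fin N → ℝ) :
    proj G η x = ∑ i, ∑ j, tmat G η i j * (x i * x j) := by
  rw [proj, zvec, mulVec_mulVec, mulVec_mulVec]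
  simp only [dotProduct, mulVec, Finset.mul_sum]
  exact Finset.sum_congr rfl fun i _ => Finset.sum_congr rfl fun j _ => by unfold tmat; ring

theorem tmat_diag (G : Matrix (Fin N) (Fin k) ℝ) (η : ℝ) (i : Fin N) :
    tmat G η i i = proj G η (Pi.single i 1) := by
  rw [proj_eq_sum]
  simp [Pi.single_apply, Finset.sum_ite_eq']

theorem tmat_diag_mem (hη : 0 < η) (i : Fin N) : 0 ≤ tmat G η i i ∧ tmat G η i i ≤ 1 := by
  rw [tmat_diag]
  refine ⟨proj_nonneg hη _, (proj_le_dot hη _).trans (le_of_eq ?_)⟩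
  simp

theorem reg_inv_mul_gram (hη : 0 < η) :
    (reg G η)⁻¹ * (Gᵀ * G) = 1 - η • (reg G η)⁻¹ := by
  have h : (Gᵀ * G) = reg G η - η • 1 := by rw [reg, add_sub_cancel_right]
  rw [h, Matrix.mul_sub, nonsing_inv_mul _ (isUnit_det_reg G hη), mul_smul_comm, Matrix.mul_one]

theorem trace_tmat (hη : 0 < η) :
    (tmat G η).trace = k - η * ((reg G η)⁻¹).trace := by
  rw [tmat, Matrix.mul_assoc, trace_mul_comm, Matrix.mul_assoc, reg_inv_mul_gram hη, trace_sub,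
    trace_smul, trace_one, Fintype.card_fin, smul_eq_mul]

theorem inv_col (hη : 0 < η) (a : Fin k) :
    (G *ᵥ ((reg G η)⁻¹ *ᵥ Pi.single a 1)) ⬝ᵥ (G *ᵥ ((reg G η)⁻¹ *ᵥ Pi.single a 1))
      + η * (((reg G η)⁻¹ *ᵥ Pi.single a 1) ⬝ᵥ ((reg G η)⁻¹ *ᵥ Pi.single a 1))
      = (reg G η)⁻¹ a a := by
  rw [← dot_reg, mulVec_mulVec (Pi.single a 1), mul_nonsing_inv _ (isUnit_det_reg G hη), one_mulVec,
    dotProduct_single, mul_one, mulVec_single_one]
  rfl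

theorem gram_col (hη : 0 < η) (a : Fin k) :
    ∑ i, (G * (reg G η)⁻¹) i a ^ 2 ≤ (reg G η)⁻¹ a a := by
  have h := inv_col (G := G) hη a
  have e : G *ᵥ ((reg G η)⁻¹ *ᵥ Pi.single a 1) = fun i => (G * (reg G η)⁻¹) i a := by
    rw [mulVec_mulVec, mulVec_single_one]
    rfl
  rw [e] at h
  have h2 := mul_nonneg hη.le (dot_self_nonneg ((reg G η)⁻¹ *ᵥ Pi.single a 1))
  simp only [dotProduct, ← sq] at h h2
  linarith

theorem inv_diag_mem (hη : 0 < η) (a : Fin k) :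
    0 ≤ (reg G η)⁻¹ a a ∧ (reg G η)⁻¹ a a ≤ 1 / η := by
  have h := inv_col (G := G) hη a
  have h1 := dot_self_nonneg (G *ᵥ ((reg G η)⁻¹ *ᵥ Pi.single a 1))
  set w := (reg G η)⁻¹ *ᵥ Pi.single a 1 with hw
  have h2 : w a * w a ≤ w ⬝ᵥ w :=
    Finset.single_le_sum (fun i _ => mul_self_nonneg (w i)) (Finset.mem_univ a)
  have h3 : w a = (reg G η)⁻¹ a a := by rw [hw, mulVec_single_one]; rfl
  rw [h3] at h2
  have h4 : η * ((reg G η)⁻¹ a a * (reg G η)⁻¹ a a) ≤ (reg G η)⁻¹ a a := by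
    nlinarith [mul_le_mul_of_nonneg_left h2 hη.le]
  constructor
  · nlinarith [mul_nonneg hη.le (mul_self_nonneg ((reg G η)⁻¹ a a))]
  · rw [le_div_iff₀ hη]
    nlinarith

theorem abs_gram_le (hη : 0 < η) (i : Fin N) (a : Fin k) :
    |(G * (reg G η)⁻¹) i a| ≤ 1 + 1 / η := by
  have h := (Finset.single_le_sum (fun j _ => sq_nonneg ((G * (reg G η)⁻¹) j a))
    (Finset.mem_univ i)).trans ((gram_col hη a).trans (inv_diag_mem hη a).2)
  nlinarith [sq_nonneg (|(G * (reg G η)⁻¹) i a| - 1), sq_abs ((G * (reg G η)⁻¹) i a),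
    abs_nonneg ((G * (reg G η)⁻¹) i a), one_div_pos.2 hη]

theorem continuous_inv_reg {X : Type*} [TopologicalSpace X] {F : X → Matrix (Fin N) (Fin k) ℝ}
    (hF : Continuous F) (hη : 0 < η) : Continuous fun x => (reg (F x) η)⁻¹ := by
  have hc : Continuous fun x => reg (F x) η := by unfold reg; fun_prop
  refine continuous_iff_continuousAt.2 fun x => ContinuousAt.comp (g := fun A => A⁻¹) ?_ hc.continuousAt
  refine continuousAt_matrix_inv _ ?_
  simpa using NormedRing.inverse_continuousAt (isUnit_det_reg (F x) hη).unit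

theorem continuous_zvec {X : Type*} [TopologicalSpace X] {F : X → Matrix (Fin N) (Fin k) ℝ}
    (hF : Continuous F) (hη : 0 < η) {x : X → Fin N → ℝ} (hx : Continuous x) :
    Continuous fun t => zvec (F t) η (x t) :=
  (continuous_inv_reg hF hη).matrix_mulVec (hF.matrix_transpose.matrix_mulVec hx)

theorem continuous_proj {X : Type*} [TopologicalSpace X] {F : X → Matrix (Fin N) (Fin k) ℝ}
    (hF : Continuous F) (hη : 0 < η) {x : X → Fin N → ℝ} (hx : Continuous x) :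
    Continuous fun t => proj (F t) η (x t) :=
  hx.dotProduct (hF.matrix_mulVec (continuous_zvec hF hη hx))

end Vale.Agent.P166
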